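import Vale.Agent.P146.Crit.Transfer
import Vale.Agent.P146.Super.Step
import Vale.Agent.P146.Super.Paths
import Mathlib.Logic.Equiv.Fintype
import Mathlib.Data.Nat.Factorial.BigOperators
import Mathlib.Data.Fintype.CardEmbedding

/-!
# P146, criticality: cycle coefficients of the free energy

The Gibbs average of the observable is a sum of equal Hermite coefficients of pair correlations,
one for each path.  By integration by parts these are the coefficients of the free energy at the
cycles closing the paths.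
-/

namespace Vale.Agent.P146.Crit

open MeasureTheory ProbabilityTheory Finset Filter
open Vale.Agent.P146.Super (law bond gibbs MG coef obs mon2 ends mkEdge inc mapEdge mapMG)

noncomputable section

variable {n j : ℕ}

/-- The multigraph of a set of edges. -/
def indG (S : Finset (Edge n)) : MG n := fun e => if e ∈ S then 1 else 0

lemma size_indG (S : Finset (Edge n)) : Super.size (indG S) = S.card := by
  simp [Super.size, indG]

lemma hG_indG (S : Finset (Edge n)) (g : Edge n → ℝ) : Super.hG (indG S) g = ∏ e ∈ S, g e := by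
  rw [Super.hG, ← prod_subset (subset_univ S) fun e _ he => by simp [indG, he, Super.herm]]
  exact prod_congr rfl fun e he => by simp [indG, he, Super.herm]

lemma mapMG_indG (π : Equiv.Perm (Fin n)) (S : Finset (Edge n)) :
    mapMG π (indG S) = indG (S.image (mapEdge π)) := by
  funext e
  have h : e ∈ S.image (mapEdge π) ↔ mapEdge π.symm e ∈ S := by
    constructor
    · intro he
      obtain ⟨d, hd, rfl⟩ := mem_image.1 he
      rwa [Super.mapEdge_symm_apply]
    · intro he
      exact mem_image.2 ⟨_, he, by simpa using Super.mapEdge_symm_apply π.symm e⟩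
  simp only [mapMG, indG, h]

/-- An edge of a path. -/
def pedge (f : Fin (j + 1) ↪ Fin n) (i : Fin j) : Edge n :=
  mkEdge (f i.castSucc) (f i.succ) (f.injective.ne (Fin.castSucc_lt_succ).ne)

lemma inc_pedge (f : Fin (j + 1) ↪ Fin n) (i : Fin j) (k : Fin (j + 1)) :
    inc (f k) (pedge f i) ↔ (k : ℕ) = i ∨ (k : ℕ) = i + 1 := by
  rw [pedge, Super.inc_mkEdge, f.injective.eq_iff, f.injective.eq_iff]
  simp [Fin.ext_iff]

lemma pedge_injective (f : Fin (j + 1) ↪ Fin n) : Function.Injective (pedge f) := by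
  intro i i' h
  have h1 := (inc_pedge f i i.castSucc).2 (Or.inl (Fin.val_castSucc i))
  have h2 := (inc_pedge f i i.succ).2 (Or.inr (Fin.val_succ i))
  rw [h, inc_pedge] at h1 h2
  simp only [Fin.val_castSucc, Fin.val_succ] at h1 h2
  exact Fin.ext (by omega)

/-- The multigraph of a path. -/
def pG (f : Fin (j + 1) ↪ Fin n) : MG n := indG (univ.image (pedge f))

lemma hG_pG (f : Fin (j + 1) ↪ Fin n) (g : Edge n → ℝ) :
    Super.hG (pG f) g = ∏ i, g (pedge f i) := by
  rw [pG, hG_indG, prod_image fun i _ i' _ h => pedge_injective f h]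

/-- The coefficient of the end correlation of a path at the path. -/
def cc (β : ℝ) (f : Fin (j + 1) ↪ Fin n) : ℝ :=
  coef (obs β mon2 ![f 0, f (Fin.last j)]) (pG f)

/-- All paths of one length have the same coefficient. -/
lemma cc_eq (β : ℝ) (f f' : Fin (j + 1) ↪ Fin n) : cc β f = cc β f' := by
  classical
  set e : {x // x ∈ Set.range f} ≃ {x // x ∈ Set.range f'} :=
    (Equiv.ofInjective f f.injective).symm.trans (Equiv.ofInjective f' f'.injective)
  set π := e.extendSubtype
  have hπ : ∀ i, π (f i) = f' i := by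
    intro i
    rw [Equiv.extendSubtype_apply_of_mem e (f i) ⟨i, rfl⟩]
    have h : (Equiv.ofInjective f f.injective).symm ⟨f i, ⟨i, rfl⟩⟩ = i :=
      Equiv.ofInjective_symm_apply f.injective i
    simp only [e, Equiv.trans_apply, h, Equiv.ofInjective_apply]
  have hx : ⇑π ∘ ![f 0, f (Fin.last j)] = ![f' 0, f' (Fin.last j)] := by
    funext i; fin_cases i <;> simp [hπ]
  have hG : mapMG π (pG f) = pG f' := by
    rw [pG, pG, mapMG_indG, image_image]
    refine congrArg indG (image_congr fun i _ => ?_)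
    show mapEdge π (pedge f i) = pedge f' i
    simp only [pedge, Super.mapEdge_mkEdge, hπ]
  unfold cc
  rw [← hx, ← hG, Super.coef_obs_relabel]

/-- A pair correlation as a Gibbs average. -/
lemma obs_two (β : ℝ) (u v : Fin n) (g : Edge n → ℝ) :
    obs β mon2 ![u, v] g = ∑ σ, gibbs β g σ * (spinVal (σ u) * spinVal (σ v)) := by
  unfold obs mon2
  rw [← (Equiv.funUnique (Fin 1) (Fin n → Bool)).symm.sum_comp]
  refine sum_congr rfl fun σ _ => ?_
  simp [Fin.prod_univ_two]

lemma telescope : ∀ (k : ℕ) (s : Fin (k + 1) → ℝ), (∀ i, s i * s i = 1) →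
    ∏ i : Fin k, s i.castSucc * s i.succ = s 0 * s (Fin.last k)
  | 0, s, h => by simp [h]
  | k + 1, s, h => by
      rw [Fin.prod_univ_castSucc]
      have h' := telescope k (fun i => s i.castSucc) fun i => h _
      simp only [Fin.castSucc_zero, Fin.succ_castSucc] at h' ⊢
      rw [h', Fin.succ_last]
      linear_combination (s 0 * s (Fin.last (k + 1))) * h (Fin.last k).castSucc

/-- A path through the classes. -/
def cemb (v : Fin (j + 1) → Fin (blk n j)) : Fin (j + 1) ↪ Fin n :=
  ⟨fun i => node n j i (v i), fun _ _ h => (node_inj h).1⟩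

lemma cedge_eq (v : Fin (j + 1) → Fin (blk n j)) (i : Fin j) :
    cedge n j v i = pedge (cemb v) i := by
  unfold pedge mkEdge
  rw [dif_pos (show cemb v i.castSucc < cemb v i.succ from node_lt (Fin.castSucc_lt_succ) _ _)]
  rfl

/-- The Gibbs average of the observable as a sum of coefficients. -/
lemma integral_avQ (hn : 1 ≤ n) (β : ℝ) :
    ∫ g, avQ n j β g ∂law n = (∑ v, cc β (cemb (n := n) (j := j) v)) / Real.sqrt n ^ j := by
  have hpt : ∀ g, avQ n j β g = (∑ v, obs β mon2 ![cemb v 0, cemb v (Fin.last j)] g *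
      Super.hG (pG (cemb (n := n) (j := j) v)) g) / Real.sqrt n ^ j := by
    intro g
    simp only [avQ, Qv_eq, mul_div_assoc', ← sum_div, mul_sum]
    rw [sum_comm]
    congr 1
    refine sum_congr rfl fun v _ => ?_
    rw [hG_pG, obs_two, sum_mul]
    refine sum_congr rfl fun σ _ => ?_
    have h := telescope j (fun i => spinVal (σ (cemb v i))) fun i => Super.spinVal_mul_self _
    simp only [cedge_eq]
    rw [← h]
    simp only [pedge, Super.bond_mkEdge]
    ring
  have hi : ∀ v : Fin (j + 1) → Fin (blk n j), Integrable (fun g =>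
      obs β mon2 ![cemb v 0, cemb v (Fin.last j)] g * Super.hG (pG (cemb (n := n) (j := j) v)) g)
      (law n) := by
    intro v
    have hL : MemLp (obs β mon2 ![cemb v 0, cemb v (Fin.last j)]) 2 (law n) :=
      MemLp.of_bound (Super.measurable_obs β _ _).aestronglyMeasurable 1 (ae_of_all _ fun g => by
        rw [Real.norm_eq_abs]; exact Super.abs_obs_le_one β _ _ g)
    exact Super.integrable_mul_em hL (Super.em_hG _) (Super.measurable_hG _)
  simp only [hpt]
  rw [integral_div, integral_finsetSum _ fun v _ => hi v]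
  rfl

/-- The edge closing a path. -/
def cls (f : Fin (j + 1) ↪ Fin n) (hj : 2 ≤ j) : Edge n :=
  mkEdge (f 0) (f (Fin.last j)) (f.injective.ne (by
    intro h; have := congrArg Fin.val h; simp at this; omega))

/-- The cycle of a path. -/
def cyc (f : Fin (j + 1) ↪ Fin n) (hj : 2 ≤ j) : MG n := Super.addE (pG f) (cls f hj)

lemma inc_cls (f : Fin (j + 1) ↪ Fin n) (hj : 2 ≤ j) (k : Fin (j + 1)) :
    inc (f k) (cls f hj) ↔ (k : ℕ) = 0 ∨ (k : ℕ) = j := by
  rw [cls, Super.inc_mkEdge, f.injective.eq_iff, f.injective.eq_iff, Fin.ext_iff, Fin.ext_iff,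
    Fin.val_zero, Fin.val_last]

lemma cls_ne (f : Fin (j + 1) ↪ Fin n) (hj : 2 ≤ j) (i : Fin j) : pedge f i ≠ cls f hj := by
  intro h
  have h1 := (inc_pedge f i i.castSucc).2 (Or.inl (Fin.val_castSucc i))
  have h2 := (inc_pedge f i i.succ).2 (Or.inr (Fin.val_succ i))
  rw [h, inc_cls] at h1 h2
  simp only [Fin.val_castSucc, Fin.val_succ] at h1 h2
  omega

lemma pG_cls (f : Fin (j + 1) ↪ Fin n) (hj : 2 ≤ j) : pG f (cls f hj) = 0 := by
  rw [pG, indG, if_neg]
  intro h
  obtain ⟨i, -, hi⟩ := mem_image.1 h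
  exact cls_ne f hj i hi

lemma size_cyc (f : Fin (j + 1) ↪ Fin n) (hj : 2 ≤ j) : Super.size (cyc f hj) = j + 1 := by
  rw [cyc, Super.size_addE, pG, size_indG, card_image_of_injective _ (pedge_injective f), card_univ,
    Fintype.card_fin]

lemma cyc_pos (f : Fin (j + 1) ↪ Fin n) (hj : 2 ≤ j) {e : Edge n} (he : 0 < cyc f hj e) :
    (∃ i, e = pedge f i) ∨ e = cls f hj := by
  by_cases h : e = cls f hj
  · exact Or.inr h
  · rw [cyc, Super.addE_of_ne _ h, pG, indG] at he
    split_ifs at he with h'
    · obtain ⟨i, -, hi⟩ := mem_image.1 h'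
      exact Or.inl ⟨i, hi.symm⟩
    · exact absurd he (lt_irrefl 0)

lemma cyc_pedge (f : Fin (j + 1) ↪ Fin n) (hj : 2 ≤ j) (i : Fin j) :
    0 < cyc f hj (pedge f i) := by
  rw [cyc, Super.addE_of_ne _ (cls_ne f hj i), pG, indG,
    if_pos (mem_image.2 ⟨i, mem_univ _, rfl⟩)]
  exact one_pos

/-- The coefficient of the free energy at a cycle. -/
lemma coef_cyc (hn : 2 ≤ n) {β : ℝ} (hβ : 0 ≤ β) (f : Fin (j + 1) ↪ Fin n) (hj : 2 ≤ j) :
    coef (freeEnergy n β) (cyc f hj) = β / Real.sqrt n * cc β f := by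
  set e := cls f hj
  have he : cyc f hj e = 1 := by rw [cyc, Super.addE_self, pG_cls]
  have hs : (1 : ℝ) ≤ Real.sqrt n := Real.one_le_sqrt.2 (by exact_mod_cast (by omega : 1 ≤ n))
  have hl : 0 ≤ (n : ℝ) * Real.log 2 := mul_nonneg (Nat.cast_nonneg n) (Real.log_nonneg one_le_two)
  have hfb : ∀ g : Edge n → ℝ,
      |freeEnergy n β g| ≤ ((n : ℝ) * Real.log 2 + β) + β * ∑ i, |g i| := fun g =>
    (freeEnergy_abs hn hβ g).trans (by linarith)
  have hdb : ∀ g : Edge n → ℝ, |β / Real.sqrt n * obs β mon2 (ends e) g|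
      ≤ ((n : ℝ) * Real.log 2 + β) + β * ∑ i, |g i| := by
    intro g
    have h1 : |β / Real.sqrt n * obs β mon2 (ends e) g| ≤ β * 1 := by
      rw [abs_mul]
      refine mul_le_mul ?_ (Super.abs_obs_le_one β _ _ g) (abs_nonneg _) hβ
      rw [abs_div, abs_of_nonneg hβ, abs_of_nonneg (Real.sqrt_nonneg _)]
      exact div_le_self hβ hs
    have := mul_nonneg hβ (sum_nonneg fun i (_ : i ∈ (univ : Finset (Edge n))) => abs_nonneg (g i))
    linarith
  rw [Super.coef_ibp (measurable_freeEnergy n β)
    ((Super.measurable_obs β mon2 (ends e)).const_mul (β / Real.sqrt n)) hfb hdb e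
    (Super.hasDerivAt_freeEnergy β e) (by omega), he, Nat.cast_one, Real.sqrt_one, div_one,
    show Super.delE (cyc f hj) e = pG f from Super.delE_addE _ _]
  have hobs : ∀ g, obs β mon2 (ends e) g = obs β mon2 ![f 0, f (Fin.last j)] g := by
    intro g
    rw [Super.obs_ends, obs_two]
    simp only [e, cls, Super.bond_mkEdge]
  simp only [cc, coef, hobs, mul_assoc, integral_const_mul]

/-- A cycle with a first step determines the path. -/
lemma cyc_inj (hj : 2 ≤ j) {f f' : Fin (j + 1) ↪ Fin n} (h : cyc f hj = cyc f' hj)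
    (h0 : f 0 = f' 0) (h1 : f ⟨1, by omega⟩ = f' ⟨1, by omega⟩) : f = f' := by
  have key : ∀ k : ℕ, ∀ hk : k < j + 1, f ⟨k, hk⟩ = f' ⟨k, hk⟩ := by
    intro k
    induction k using Nat.strong_induction_on with
    | _ k ih =>
      intro hk
      match k, ih, hk with
      | 0, _, _ => exact h0
      | 1, _, _ => exact h1
      | k + 2, ih, hk =>
        set i : Fin j := ⟨k + 1, by omega⟩
        have e0 := ih k (by omega) (by omega)
        have e1 := ih (k + 1) (by omega) (by omega)
        set a : Fin (j + 1) := ⟨k + 1, by omega⟩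
        set b : Fin (j + 1) := ⟨k + 2, hk⟩
        have ha : inc (f a) (pedge f' i) := by
          rw [e1]; exact (inc_pedge f' i a).2 (Or.inl rfl)
        have hb : inc (f' b) (pedge f' i) := (inc_pedge f' i b).2 (Or.inr rfl)
        rcases cyc_pos f hj (h ▸ cyc_pedge f' hj i) with ⟨i', hi'⟩ | hi'
        · rw [hi', inc_pedge] at ha
          rw [hi', pedge, Super.inc_mkEdge] at hb
          simp only [a] at ha
          rcases ha with ha | ha
          · rcases hb with hb | hb
            · have : f' b = f' a := by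
                rw [hb, ← e1]; exact congrArg f (Fin.ext (by simp [a]; omega))
              exact absurd (congrArg Fin.val (f'.injective this)) (by simp [a, b])
            · rw [hb]; exact congrArg f (Fin.ext (by simp [b]; omega))
          · rcases hb with hb | hb
            · have : f' b = f' ⟨k, by omega⟩ := by
                rw [hb, ← e0]; exact congrArg f (Fin.ext (by simp; omega))
              exact absurd (congrArg Fin.val (f'.injective this)) (by simp [b])
            · have : f' b = f' a := by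
                rw [hb, ← e1]; exact congrArg f (Fin.ext (by simp [a]; omega))
              exact absurd (congrArg Fin.val (f'.injective this)) (by simp [a, b])
        · rw [hi', inc_cls] at ha
          simp only [a] at ha
          omega
  exact Function.Embedding.ext fun k => key k.1 k.2

open Classical in
/-- The cycles of length `j + 1`. -/
def cycles (n j : ℕ) : Finset (MG n) :=
  if hj : 2 ≤ j then (univ : Finset (Fin (j + 1) ↪ Fin n)).image fun f => cyc f hj else ∅

lemma size_mem_cycles {G : MG n} (h : G ∈ cycles n j) : Super.size G = j + 1 := by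
  unfold cycles at h
  split_ifs at h with hj
  · obtain ⟨f, -, rfl⟩ := mem_image.1 h
    exact size_cyc f hj
  · simp at h

lemma card_cycles (hj : 2 ≤ j) : n.descFactorial (j + 1) ≤ 2 * (j + 1) * (cycles n j).card := by
  classical
  rw [cycles, dif_pos hj]
  have hc : (univ : Finset (Fin (j + 1) ↪ Fin n)).card = n.descFactorial (j + 1) := by
    rw [card_univ, Fintype.card_embedding_eq, Fintype.card_fin, Fintype.card_fin]
  rw [← hc]
  refine card_le_mul_card_image _ _ fun G hG => ?_
  obtain ⟨f0, -, rfl⟩ := mem_image.1 hG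
  set G := cyc f0 hj
  have hsupp : (univ.filter fun e => 0 < G e).card ≤ j + 1 := by
    rw [← size_cyc f0 hj, card_eq_sum_ones, sum_filter]
    exact sum_le_sum fun e _ => by split_ifs with h <;> [exact h; exact Nat.zero_le _]
  set i0 : Fin j := ⟨0, by omega⟩
  set φ : (Fin (j + 1) ↪ Fin n) → Edge n × Bool := fun f =>
    (pedge f i0, decide (f i0.castSucc < f i0.succ))
  refine le_trans (card_le_card_of_injOn (t := (univ.filter fun e => 0 < G e) ×ˢ univ) φ ?_ ?_) ?_
  · intro f hf
    simp only [coe_filter, mem_univ, true_and, Set.mem_ofPred_eq] at hf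
    simp only [coe_product, Set.mem_prod, coe_univ, Set.mem_univ, and_true, coe_filter, mem_univ,
      true_and, Set.mem_ofPred_eq, φ]
    rw [← hf]; exact cyc_pedge f hj i0
  · intro f hf f' hf' he
    simp only [coe_filter, mem_univ, true_and, Set.mem_ofPred_eq] at hf hf'
    simp only [φ, Prod.mk.injEq, decide_eq_decide] at he
    obtain ⟨he, hlt⟩ := he
    have hval := congrArg (fun e : Edge n => e.1) he
    simp only [pedge, mkEdge] at hval
    have h01 : f i0.castSucc = f' i0.castSucc ∧ f i0.succ = f' i0.succ := by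
      by_cases hc : f i0.castSucc < f i0.succ
      · rw [dif_pos hc, dif_pos (hlt.1 hc), Prod.mk.injEq] at hval
        exact hval
      · rw [dif_neg hc, dif_neg (fun h => hc (hlt.2 h)), Prod.mk.injEq] at hval
        exact ⟨hval.2, hval.1⟩
    exact cyc_inj hj (hf.trans hf'.symm) h01.1 h01.2
  · rw [card_product, card_univ, Fintype.card_bool]
    omega

/-- **The cycles of one length carry a mass of order `1 / j` near the critical point.** -/
theorem cycles_lower (hj : 2 ≤ j) {a : ℝ} (ha : 1 / 2 ≤ a) (ha1 : a < 1) (haj : 1 / 2 ≤ a ^ j) :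
    ∀ᶠ n : ℕ in atTop, ∀ β : ℝ, |β - a| ≤ cη j → 1 / 2 ≤ β →
      1 / (16384 * ((j : ℝ) + 1)) ≤ ∑ G ∈ cycles n j, coef (freeEnergy n β) G ^ 2 := by
  classical
  filter_upwards [avQ_lower j ha ha1, eventually_ge_atTop (2 * (j + 1)),
    eventually_ge_atTop (2 * (j + 1) * j)] with n havg hn hn2 β hβ hβ2
  have hn0 : (0 : ℝ) < n := by exact_mod_cast (by omega : 0 < n)
  obtain ⟨hr, -⟩ := blk_ge hn
  set r := blk n j with hrdef
  have hr0 : (0 : ℝ) < r := by exact_mod_cast hr
  set v0 : Fin (j + 1) → Fin (blk n j) := fun _ => ⟨0, hr⟩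
  set c := cc β (cemb (n := n) v0) with hc
  have hS : ∑ v, cc β (cemb (n := n) (j := j) v) = (r : ℝ) ^ (j + 1) * c := by
    rw [sum_congr rfl fun v _ => cc_eq β (cemb v) (cemb v0), sum_const, card_univ, nsmul_eq_mul,
      Fintype.card_fun, Fintype.card_fin, Fintype.card_fin]
    push_cast
    rfl
  have h := havg β hβ
  rw [integral_avQ (by omega) β, hS] at h
  set s := Real.sqrt n ^ j with hs
  have hs0 : 0 < s := by positivity
  have hs2 : s ^ 2 = (n : ℝ) ^ j := by
    rw [hs, ← pow_mul, mul_comm, pow_mul, Real.sq_sqrt hn0.le]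
  have hcl : 1 / (32 * s) ≤ c := by
    have e : cq n j a / 8 = a ^ j / (16 * s) * ((r : ℝ) ^ (j + 1) / s) := by
      rw [cq, ← hrdef, div_pow, mul_pow, ← hs2, pow_succ]
      field_simp
      ring
    rw [e, le_div_iff₀ hs0, mul_assoc, div_mul_cancel₀ _ hs0.ne'] at h
    have h2 : a ^ j / (16 * s) ≤ c := by
      rw [mul_comm ((r : ℝ) ^ (j + 1)) c] at h
      exact le_of_mul_le_mul_right h (by positivity)
    refine le_trans ?_ h2
    rw [div_le_div_iff₀ (by positivity) (by positivity)]
    nlinarith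
  have hG : ∀ G ∈ cycles n j, 1 / (4096 * (n : ℝ) ^ (j + 1)) ≤ coef (freeEnergy n β) G ^ 2 := by
    intro G hG
    rw [cycles, dif_pos hj] at hG
    obtain ⟨f, -, rfl⟩ := mem_image.1 hG
    rw [coef_cyc (by omega) (by linarith) f hj, cc_eq β f (cemb v0), ← hc, mul_pow, div_pow,
      Real.sq_sqrt hn0.le]
    have h1 : (1 / 2 : ℝ) ^ 2 ≤ β ^ 2 := pow_le_pow_left₀ (by norm_num) hβ2 2
    have h2 : (1 / (32 * s)) ^ 2 ≤ c ^ 2 := pow_le_pow_left₀ (by positivity) hcl 2
    calc 1 / (4096 * (n : ℝ) ^ (j + 1)) = (1 / 2 : ℝ) ^ 2 / n * (1 / (32 * s)) ^ 2 := by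
          rw [div_pow (1 : ℝ) (32 * s), mul_pow, hs2, pow_succ]; field_simp; norm_num
      _ ≤ β ^ 2 / n * c ^ 2 := by gcongr
  have hcard : (n : ℝ) ^ (j + 1) / 2 ≤ 2 * ((j : ℝ) + 1) * (cycles n j).card := by
    have h1 : ((n - j) ^ (j + 1) : ℕ) ≤ 2 * (j + 1) * (cycles n j).card := by
      refine le_trans ?_ (card_cycles hj)
      have := Nat.pow_sub_le_descFactorial n (j + 1)
      rwa [Nat.add_sub_add_right] at this
    have h2 : ((n : ℝ) - j) ^ (j + 1) ≤ 2 * ((j : ℝ) + 1) * (cycles n j).card := by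
      have := (Nat.cast_le (α := ℝ)).2 h1
      push_cast [Nat.cast_sub (by omega : j ≤ n)] at this
      exact this
    refine le_trans ?_ h2
    have hn2' : 2 * ((j : ℝ) + 1) * j ≤ n := by exact_mod_cast hn2
    have hb := one_add_mul_le_pow (a := -((j : ℝ) / n)) (by
      have : (j : ℝ) / n ≤ 1 := by rw [div_le_one hn0]; exact_mod_cast (by omega : j ≤ n)
      linarith) (j + 1)
    have e : ((n : ℝ) - j) ^ (j + 1) = (n : ℝ) ^ (j + 1) * (1 + -((j : ℝ) / n)) ^ (j + 1) := by
      rw [← mul_pow]; congr 1; field_simp; ring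
    rw [e]
    refine le_trans ?_ (mul_le_mul_of_nonneg_left hb (by positivity))
    rw [div_eq_mul_inv]
    refine mul_le_mul_of_nonneg_left ?_ (by positivity)
    have h3 : ((j + 1 : ℕ) : ℝ) * ((j : ℝ) / n) ≤ 1 / 2 := by
      push_cast
      rw [← mul_div_assoc, div_le_iff₀ hn0]
      linarith
    linarith
  refine le_trans ?_ (card_nsmul_le_sum _ _ _ hG)
  rw [nsmul_eq_mul, mul_one_div, div_le_div_iff₀ (by positivity) (by positivity)]
  nlinarith

end

end Vale.Agent.P146.Crit
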