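import Vale.Agent.P157.Moments
import Vale.Agent.P146.Super.NBTail
import Mathlib.Probability.Distributions.Gaussian.Real
import Mathlib.MeasureTheory.MeasurableSpace.Embedding

/-!
# P146, criticality: Gaussian tools

Marginals along an injection, the shift of a Gaussian vector as a change of measure, and two
exponential tail bounds for a Gaussian matrix applied to a vector.
-/

namespace Vale.Agent.P146.Crit

open MeasureTheory ProbabilityTheory Finset
open Vale.Agent.P157 (gaussVec)

noncomputable section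

/-- Forgetting coordinates. -/
lemma measurePreserving_comp {ι κ : Type*} [Fintype ι] [Fintype κ] (f : κ → ι)
    (hf : Function.Injective f) :
    MeasurePreserving (fun (g : ι → ℝ) k => g (f k)) (gaussVec ι) (gaussVec κ) := by
  classical
  have hm : Measurable fun (g : ι → ℝ) k => g (f k) := by fun_prop
  refine ⟨hm, (Measure.pi_eq fun s hs => ?_).symm⟩
  rw [Measure.map_apply hm (.univ_pi hs)]
  have e : (fun (g : ι → ℝ) k => g (f k)) ⁻¹' Set.univ.pi s =
      Set.univ.pi (fun i => ⋂ k ∈ univ.filter (fun k => f k = i), s k) := by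
    ext g
    simp only [Set.mem_preimage, Set.mem_univ_pi, Set.mem_iInter, mem_filter, mem_univ, true_and]
    exact ⟨fun h i k hk => hk ▸ h k, fun h k => h (f k) k rfl⟩
  rw [e, gaussVec, Measure.pi_pi, ← prod_subset (subset_univ (univ.image f)) fun i _ hi => ?_,
    prod_image fun a _ b _ h => hf h]
  · refine prod_congr rfl fun k _ => ?_
    congr 1
    ext x
    simp only [Set.mem_iInter, mem_filter, mem_univ, true_and]
    exact ⟨fun h => h k rfl, fun h k' hk' => hf hk' ▸ h⟩
  · rw [show (⋂ k ∈ univ.filter (fun k => f k = i), s k) = Set.univ by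
      ext x
      simp only [Set.mem_iInter, mem_filter, mem_univ, true_and, Set.mem_univ, iff_true]
      intro k hk
      exact absurd (mem_image.2 ⟨k, mem_univ _, hk⟩) hi, measure_univ]

/-- Iterated products of one law. -/
lemma measurePreserving_uncurry {ι κ α : Type*} [Fintype ι] [Fintype κ] [MeasurableSpace α]
    (μ : Measure α) [IsProbabilityMeasure μ] :
    MeasurePreserving (fun (g : ι → κ → α) (p : ι × κ) => g p.1 p.2)
      (Measure.pi fun _ : ι => Measure.pi fun _ : κ => μ) (Measure.pi fun _ : ι × κ => μ) := by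
  have hm : Measurable fun (g : ι → κ → α) (p : ι × κ) => g p.1 p.2 := by fun_prop
  refine ⟨hm, (Measure.pi_eq fun s hs => ?_).symm⟩
  rw [Measure.map_apply hm (.univ_pi hs)]
  have e : (fun (g : ι → κ → α) (p : ι × κ) => g p.1 p.2) ⁻¹' Set.univ.pi s =
      Set.univ.pi fun i => Set.univ.pi fun j => s (i, j) := by
    ext g; simp [Prod.forall]
  rw [e, Measure.pi_pi, Fintype.prod_prod_type]
  simp [Measure.pi_pi]

/-- Currying a Gaussian vector. -/
lemma measurePreserving_curry {ι κ α : Type*} [Fintype ι] [Fintype κ] [MeasurableSpace α]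
    (μ : Measure α) [IsProbabilityMeasure μ] :
    MeasurePreserving (fun (g : ι × κ → α) i j => g (i, j))
      (Measure.pi fun _ : ι × κ => μ) (Measure.pi fun _ : ι => Measure.pi fun _ : κ => μ) := by
  have h := (measurePreserving_uncurry (ι := ι) (κ := κ) μ)
  refine ⟨by fun_prop, ?_⟩
  rw [← h.map_eq, Measure.map_map (by fun_prop) h.measurable]
  exact Measure.map_id

/-- The shift of a Gaussian vector as a change of measure. -/
lemma integral_tilt {ι : Type*} [Fintype ι] (c : ℝ) {F : (ι → ℝ) → ℝ} (hF : Measurable F) :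
    ∫ g, Real.exp (c * ∑ i, g i) * F g ∂gaussVec ι =
      Real.exp (Fintype.card ι * c ^ 2 / 2) * ∫ g, F (fun i => g i + c) ∂gaussVec ι := by
  classical
  set R : (ι → ℝ) → ℝ := fun g => ∏ i, Real.exp (c * g i - c ^ 2 / 2) with hR
  have hRm : Measurable R := by simp only [hR]; fun_prop
  have h1 : (gaussianReal 0 1).withDensity (fun x => ENNReal.ofReal (Real.exp (c * x - c ^ 2 / 2)))
      = gaussianReal c 1 := by
    rw [gaussianReal_of_var_ne_zero _ one_ne_zero, gaussianReal_of_var_ne_zero _ one_ne_zero,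
      ← withDensity_mul _ (measurable_gaussianPDF 0 1) (by fun_prop)]
    congr 1
    funext x
    rw [Pi.mul_apply, gaussianPDF, gaussianPDF, ← ENNReal.ofReal_mul (gaussianPDFReal_nonneg _ _ _)]
    congr 1
    simp only [gaussianPDFReal, NNReal.coe_one, mul_one, sub_zero]
    rw [mul_assoc, ← Real.exp_add]
    ring_nf
  have hint : Integrable (fun x => Real.exp (c * x - c ^ 2 / 2)) (gaussianReal 0 1) := by
    refine ⟨by fun_prop, ?_⟩
    rw [hasFiniteIntegral_iff_ofReal (ae_of_all _ fun x => (Real.exp_pos _).le)]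
    have h := congrArg (fun m : Measure ℝ => m Set.univ) h1
    simp only [withDensity_apply _ MeasurableSet.univ, Measure.restrict_univ, measure_univ] at h
    rw [h]; exact ENNReal.one_lt_top
  have hm : Measurable fun (g : ι → ℝ) i => g i + c := by fun_prop
  have hmap : (gaussVec ι).withDensity (fun g => ENNReal.ofReal (R g))
      = (gaussVec ι).map fun g i => g i + c := by
    have hp : (gaussVec ι).map (fun g i => g i + c) = Measure.pi fun _ : ι => gaussianReal c 1 := by
      rw [gaussVec, Measure.pi_map_pi (f := fun _ x => x + c) fun _ => by fun_prop]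
      simp [gaussianReal_map_add_const]
    rw [hp]
    refine (Measure.pi_eq fun s hs => ?_).symm
    have hsm := MeasurableSet.univ_pi hs
    have hintR : Integrable R (gaussVec ι) :=
      Integrable.fintype_prod (f := fun _ x => Real.exp (c * x - c ^ 2 / 2)) fun _ => hint
    rw [withDensity_apply _ hsm, ← ofReal_integral_eq_lintegral_ofReal hintR.restrict
        (ae_of_all _ fun g => prod_nonneg fun i _ => (Real.exp_pos _).le),
      ← integral_indicator hsm]
    have e : ∀ g : ι → ℝ, (Set.univ.pi s).indicator R g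
        = ∏ i, (s i).indicator (fun x => Real.exp (c * x - c ^ 2 / 2)) (g i) := by
      intro g
      by_cases h : g ∈ Set.univ.pi s
      · rw [Set.indicator_of_mem h]
        exact prod_congr rfl fun i _ => (Set.indicator_of_mem (h i trivial)
          (fun x => Real.exp (c * x - c ^ 2 / 2))).symm
      · rw [Set.indicator_of_notMem h]
        obtain ⟨i, hi⟩ : ∃ i, g i ∉ s i := by simpa [Set.mem_univ_pi] using h
        exact (prod_eq_zero (mem_univ i) (by rw [Set.indicator_of_notMem hi])).symm
    simp only [e]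
    rw [gaussVec, integral_fintype_prod_eq_prod (f := fun i =>
        (s i).indicator fun x => Real.exp (c * x - c ^ 2 / 2)),
      ENNReal.ofReal_prod_of_nonneg fun i _ => integral_nonneg fun x =>
        Set.indicator_nonneg (fun y _ => (Real.exp_pos _).le) x]
    refine prod_congr rfl fun i _ => ?_
    rw [integral_indicator (hs i), ofReal_integral_eq_lintegral_ofReal hint.restrict
      (ae_of_all _ fun _ => (Real.exp_pos _).le), ← withDensity_apply _ (hs i), h1]
  have key : ∫ g, R g * F g ∂gaussVec ι = ∫ g, F (fun i => g i + c) ∂gaussVec ι := by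
    rw [← integral_map (φ := fun (g : ι → ℝ) i => g i + c) hm.aemeasurable
      hF.aestronglyMeasurable, ← hmap,
      integral_withDensity_eq_integral_toReal_smul hRm.ennreal_ofReal
        (ae_of_all _ fun _ => ENNReal.ofReal_lt_top)]
    refine integral_congr_ae (ae_of_all _ fun g => ?_)
    simp [hR, ENNReal.toReal_ofReal (prod_nonneg fun i _ => (Real.exp_pos _).le)]
  rw [← key, ← integral_const_mul]
  refine integral_congr_ae (ae_of_all _ fun g => ?_)
  simp only [hR, ← Real.exp_sum, ← mul_assoc, ← Real.exp_add]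
  congr 2
  rw [sum_sub_distrib, ← mul_sum, sum_const, card_univ, nsmul_eq_mul]
  ring

/-- The law of a square Gaussian matrix. -/
def matLaw (r : ℕ) : Measure (Fin r → Fin r → ℝ) :=
  Measure.pi fun _ : Fin r => gaussVec (Fin r)

instance (r : ℕ) : IsProbabilityMeasure (matLaw r) := by unfold matLaw gaussVec; infer_instance

lemma integral_exp_mul (s : ℝ) :
    Integrable (fun z => Real.exp (s * z)) (gaussianReal 0 1) ∧
      ∫ z, Real.exp (s * z) ∂gaussianReal 0 1 = Real.exp (s ^ 2 / 2) := by
  refine ⟨integrable_exp_mul_gaussianReal s, ?_⟩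
  have h := congrFun (mgf_id_gaussianReal (μ := 0) (v := 1)) s
  simp only [mgf, id_eq] at h
  rw [h]
  simp

/-- The total of `B x` has a Gaussian lower tail. -/
lemma mat_sum_tail (r : ℕ) (x : Fin r → ℝ) {t : ℝ} (ht : 0 < t) {V : ℝ} (hV : 0 < V)
    (hx : (r : ℝ) * ∑ l, x l ^ 2 ≤ V) :
    (matLaw r).real {B | ∑ u, ∑ l, B u l * x l ≤ -t} ≤ Real.exp (-(t ^ 2 / (2 * V))) := by
  set w : ℝ := ∑ l, x l ^ 2
  have hw : 0 ≤ w := sum_nonneg fun l _ => sq_nonneg _
  set s : ℝ := t / V with hs
  have hrow : Integrable (fun b : Fin r → ℝ => Real.exp (-s * ∑ l, b l * x l)) (gaussVec (Fin r)) ∧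
      ∫ b, Real.exp (-s * ∑ l, b l * x l) ∂gaussVec (Fin r) = Real.exp (s ^ 2 * w / 2) := by
    obtain ⟨h1, h2⟩ := integral_exp_mul (-s * Real.sqrt w)
    refine ⟨Vale.Agent.P157.integrable_linear x (F := fun y => Real.exp (-s * y)) (by fun_prop)
      (h1.congr (ae_of_all _ fun z => congrArg Real.exp (by ring))), ?_⟩
    rw [Vale.Agent.P157.integral_linear x (F := fun y => Real.exp (-s * y)) (by fun_prop)]
    simp only [← mul_assoc]
    rw [h2]
    congr 1
    rw [mul_pow, Real.sq_sqrt hw]
    ring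
  have hint : Integrable (fun B : Fin r → Fin r → ℝ => Real.exp (-s * ∑ u, ∑ l, B u l * x l))
      (matLaw r) := by
    refine (Integrable.fintype_prod (μ := fun _ : Fin r => gaussVec (Fin r))
      (f := fun _ b => Real.exp (-s * ∑ l, b l * x l)) fun _ => hrow.1).congr (ae_of_all _ fun B => ?_)
    dsimp only
    rw [mul_sum, Real.exp_sum]
  have h := mul_meas_ge_le_integral_of_nonneg (μ := matLaw r) (ae_of_all _ fun B =>
    (Real.exp_pos (-s * ∑ u, ∑ l, B u l * x l)).le) hint (Real.exp (s * t))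
  have heq : ∫ B, Real.exp (-s * ∑ u, ∑ l, B u l * x l) ∂matLaw r
      = Real.exp (s ^ 2 * w / 2) ^ r := by
    have e : (fun B : Fin r → Fin r → ℝ => Real.exp (-s * ∑ u, ∑ l, B u l * x l))
        = fun B => ∏ u, Real.exp (-s * ∑ l, B u l * x l) := by
      funext B; rw [mul_sum, Real.exp_sum]
    rw [e, matLaw,
      integral_fintype_prod_eq_prod (f := fun (_ : Fin r) (b : Fin r → ℝ) => Real.exp (-s * ∑ l, b l * x l)), hrow.2]
    simp
  rw [heq] at h
  have hset : {B : Fin r → Fin r → ℝ | ∑ u, ∑ l, B u l * x l ≤ -t} ⊆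
      {B | Real.exp (s * t) ≤ Real.exp (-s * ∑ u, ∑ l, B u l * x l)} := by
    intro B hB
    have hB' : ∑ u, ∑ l, B u l * x l ≤ -t := hB
    refine Real.exp_le_exp.2 ?_
    have : 0 ≤ s := by positivity
    nlinarith
  refine (measureReal_mono hset).trans ?_
  rw [← le_div_iff₀' (Real.exp_pos _)] at h
  refine h.trans ?_
  rw [← Real.exp_nat_mul, ← Real.exp_sub, Real.exp_le_exp]
  have h3 : (r : ℝ) * (s ^ 2 * w / 2) ≤ s ^ 2 * V / 2 := by
    have := mul_le_mul_of_nonneg_left hx (sq_nonneg s)
    linarith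
  have h4 : s ^ 2 * V / 2 - s * t = -(t ^ 2 / (2 * V)) := by
    rw [hs]; field_simp; ring
  linarith

/-- The norm of `B x` has an exponential tail. -/
lemma mat_norm_tail (r : ℕ) (x : Fin r → ℝ) (Λ : ℝ) :
    (matLaw r).real {B | Λ * r * ∑ l, x l ^ 2 < ∑ u, (∑ l, B u l * x l) ^ 2}
      ≤ Real.exp (-((r : ℝ) * (Λ / 4 - 1 / 2))) := by
  set w : ℝ := ∑ l, x l ^ 2
  rcases (sum_nonneg fun l _ => sq_nonneg (x l) : 0 ≤ w).eq_or_lt with hw | hw
  · have hx : ∀ l, x l = 0 := fun l =>
      pow_eq_zero_iff two_ne_zero |>.1 ((sum_eq_zero_iff_of_nonneg fun l _ => sq_nonneg (x l)).1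
        hw.symm l (mem_univ l))
    have : {B : Fin r → Fin r → ℝ | Λ * r * w < ∑ u, (∑ l, B u l * x l) ^ 2} = ∅ := by
      refine Set.eq_empty_of_forall_notMem fun B hB => ?_
      have hw0 : w = 0 := hw.symm
      simp only [Set.mem_ofPred_eq, hw0, hx, mul_zero, sum_const_zero] at hB
      simp at hB
    rw [this]; simp [(Real.exp_pos _).le]
  replace hw : 0 < w := hw
  set s : ℝ := 1 / (4 * w) with hs
  have hsw : s * Real.sqrt w ^ 2 = 1 / 4 := by
    rw [Real.sq_sqrt hw.le, hs]; field_simp
  have hrow : Integrable (fun b : Fin r → ℝ => Real.exp (s * (∑ l, b l * x l) ^ 2))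
      (gaussVec (Fin r)) ∧
      ∫ b, Real.exp (s * (∑ l, b l * x l) ^ 2) ∂gaussVec (Fin r) ≤ Real.exp (1 / 2) := by
    refine ⟨Vale.Agent.P157.integrable_linear x (F := fun y => Real.exp (s * y ^ 2)) (by fun_prop)
      ((Super.integrable_exp_sq (s := 1 / 4) (by norm_num)).congr (ae_of_all _ fun z => by
        simp only [mul_pow, ← mul_assoc]; rw [hsw])), ?_⟩
    rw [Vale.Agent.P157.integral_linear x (F := fun y => Real.exp (s * y ^ 2)) (by fun_prop)]
    simp only [mul_pow, ← mul_assoc]
    rw [hsw, Super.integral_exp_sq (by norm_num)]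
    have h2 : (Real.sqrt (1 - 2 * (1 / 4)))⁻¹ ≤ 3 / 2 := by
      rw [inv_le_comm₀ (by positivity) (by norm_num)]
      exact Real.le_sqrt_of_sq_le (by norm_num)
    linarith [Real.add_one_le_exp (1 / 2 : ℝ)]
  have hint : Integrable (fun B : Fin r → Fin r → ℝ =>
      Real.exp (s * ∑ u, (∑ l, B u l * x l) ^ 2)) (matLaw r) := by
    refine (Integrable.fintype_prod (μ := fun _ : Fin r => gaussVec (Fin r))
      (f := fun _ b => Real.exp (s * (∑ l, b l * x l) ^ 2)) fun _ => hrow.1).congr
      (ae_of_all _ fun B => ?_)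
    dsimp only
    rw [mul_sum, Real.exp_sum]
  have h := mul_meas_ge_le_integral_of_nonneg (μ := matLaw r) (ae_of_all _ fun B =>
    (Real.exp_pos (s * ∑ u, (∑ l, B u l * x l) ^ 2)).le) hint (Real.exp (s * (Λ * r * w)))
  have heq : ∫ B, Real.exp (s * ∑ u, (∑ l, B u l * x l) ^ 2) ∂matLaw r
      ≤ Real.exp (1 / 2) ^ r := by
    have e : (fun B : Fin r → Fin r → ℝ => Real.exp (s * ∑ u, (∑ l, B u l * x l) ^ 2))
        = fun B => ∏ u, Real.exp (s * (∑ l, B u l * x l) ^ 2) := by
      funext B; rw [mul_sum, Real.exp_sum]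
    rw [e, matLaw,
      integral_fintype_prod_eq_prod (f := fun (_ : Fin r) (b : Fin r → ℝ) => Real.exp (s * (∑ l, b l * x l) ^ 2))]
    rw [prod_const, card_univ, Fintype.card_fin]
    exact pow_le_pow_left₀ (integral_nonneg fun b => (Real.exp_pos _).le) hrow.2 r
  have h' := h.trans heq
  have hset : {B : Fin r → Fin r → ℝ | Λ * r * w < ∑ u, (∑ l, B u l * x l) ^ 2} ⊆
      {B | Real.exp (s * (Λ * r * w)) ≤ Real.exp (s * ∑ u, (∑ l, B u l * x l) ^ 2)} := by
    intro B hB
    exact Real.exp_le_exp.2 (mul_le_mul_of_nonneg_left (le_of_lt hB) (by positivity))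
  refine (measureReal_mono hset).trans ?_
  rw [← le_div_iff₀' (Real.exp_pos _)] at h'
  refine h'.trans (le_of_eq ?_)
  rw [← Real.exp_nat_mul, ← Real.exp_sub]
  congr 1
  rw [hs]; field_simp; ring

end

end Vale.Agent.P146.Crit
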