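import Vale.Agent.P146.Crit.Gauss
import Vale.Agent.P146.Super.Graph
import Vale.Agent.P146.Super.Gibbs
import Mathlib.Algebra.Order.Chebyshev

/-!
# P146, criticality: products of Gaussian blocks

The vertices are cut into `j + 1` classes of size `n / (j + 1)`.  The product of the `j` blocks of
couplings between consecutive classes, applied to the all ones vector, has a total which is not
much below its mean, apart from an exponentially small probability.
-/

namespace Vale.Agent.P146.Crit

open MeasureTheory ProbabilityTheory Finset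
open Vale.Agent.P146.Super (law bond)
open Vale.Agent.P157 (gaussVec)

noncomputable section

variable {n r : ℕ}

/-- A sequence of square matrices. -/
abbrev Mats (r k : ℕ) := Fin k → Fin r → Fin r → ℝ

/-- The law of a sequence of Gaussian matrices. -/
def matsLaw (r k : ℕ) : Measure (Mats r k) := Measure.pi fun _ : Fin k => matLaw r

instance (r k : ℕ) : IsProbabilityMeasure (matsLaw r k) := by unfold matsLaw; infer_instance

/-- One step of the normalised product. -/
def step (n : ℕ) (M : Fin r → Fin r → ℝ) (x : Fin r → ℝ) (u : Fin r) : ℝ :=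
  (∑ l, M u l * x l) / Real.sqrt n

/-- The normalised product of the matrices applied to a vector. -/
def run (n : ℕ) : (k : ℕ) → Mats r k → (Fin r → ℝ) → Fin r → ℝ
  | 0, _, x => x
  | k + 1, B, x => step n (B (Fin.last k)) (run n k (fun i => B i.castSucc) x)

/-- The total of the product applied to the all ones vector. -/
def total (n k : ℕ) (B : Mats r k) : ℝ := ∑ u, run n k B (fun _ => 1) u

/-- A constant added to all entries. -/
def shiftM {k : ℕ} (c : ℝ) (B : Mats r k) : Mats r k := fun i u l => B i u l + c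

lemma measurable_run (n k : ℕ) (x : Fin r → ℝ) : Measurable fun B : Mats r k => run n k B x := by
  induction k with
  | zero => exact measurable_const
  | succ k ih =>
    refine measurable_pi_lambda _ fun u => ?_
    have h : Measurable fun B : Mats r (k + 1) => run n k (fun i => B i.castSucc) x :=
      ih.comp (by fun_prop)
    simp only [run, step]
    exact (Finset.measurable_sum _ fun l _ =>
      (show Measurable fun B : Mats r (k + 1) => B (Fin.last k) u l by fun_prop).mul
        ((measurable_pi_apply l).comp h)).div_const _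

lemma measurable_total (n k : ℕ) : Measurable fun B : Mats r k => total n k B :=
  Finset.measurable_sum _ fun u _ => (measurable_pi_apply u).comp (measurable_run n k _)

/-- A bound on all fibres of a set bounds its product measure. -/
lemma prod_real_le {α β : Type*} [MeasurableSpace α] [MeasurableSpace β] (μ : Measure α)
    (ν : Measure β) [IsProbabilityMeasure μ] [IsProbabilityMeasure ν] {S : Set (α × β)}
    (hS : MeasurableSet S) {e : ℝ} (he : 0 ≤ e) (h : ∀ y, μ.real {x | (x, y) ∈ S} ≤ e) :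
    (μ.prod ν).real S ≤ e := by
  have h1 : (μ.prod ν) S ≤ ENNReal.ofReal e := by
    rw [Measure.prod_apply_symm hS]
    calc ∫⁻ y, μ ((fun x => (x, y)) ⁻¹' S) ∂ν ≤ ∫⁻ _y, ENNReal.ofReal e ∂ν :=
          lintegral_mono fun y => by
            rw [ENNReal.le_ofReal_iff_toReal_le (measure_ne_top _ _) he]
            exact h y
      _ = ENNReal.ofReal e := by simp
  exact (ENNReal.toReal_mono ENNReal.ofReal_ne_top h1).trans_eq (ENNReal.toReal_ofReal he)

/-- The two good properties of the partial product. -/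
def Good (n : ℕ) (a Λ ζ : ℝ) (k : ℕ) (x : Fin r → ℝ) : Prop :=
  ∑ u, x u ^ 2 ≤ (2 + 2 * Λ) ^ k * r ∧
    (a * r / n) ^ k * r - k * ζ * r ≤ ∑ u, x u

lemma good_step {a Λ ζ : ℝ} (ha : 0 ≤ a) (ha1 : a ≤ 1) (hn : 0 < n) (hrn : r ≤ n) (hΛ : 0 ≤ Λ)
    (hζ : 0 ≤ ζ) {k : ℕ} {x : Fin r → ℝ} (hx : Good n a Λ ζ k x) (M : Fin r → Fin r → ℝ)
    (hN : ∑ u, (∑ l, M u l * x l) ^ 2 ≤ Λ * r * ∑ l, x l ^ 2)
    (hS : -(ζ * r * Real.sqrt n) ≤ ∑ u, ∑ l, M u l * x l) :
    Good n a Λ ζ (k + 1) (step n (fun u l => M u l + a / Real.sqrt n) x) := by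
  obtain ⟨h1, h2⟩ := hx
  have hn' : (0 : ℝ) < n := by exact_mod_cast hn
  have hrn' : (r : ℝ) ≤ n := by exact_mod_cast hrn
  have hr0 : (0 : ℝ) ≤ r := Nat.cast_nonneg r
  have hs : 0 < Real.sqrt n := Real.sqrt_pos.2 hn'
  have hs2 : Real.sqrt n ^ 2 = n := Real.sq_sqrt hn'.le
  set w := ∑ l, x l ^ 2
  set S := ∑ l, x l
  have hw : 0 ≤ w := sum_nonneg fun l _ => sq_nonneg _
  have hS2 : S ^ 2 ≤ r * w := by
    have := sq_sum_le_card_mul_sum_sq (s := (univ : Finset (Fin r))) (f := x)
    simpa using this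
  have e : ∀ u, step n (fun u l => M u l + a / Real.sqrt n) x u
      = ((∑ l, M u l * x l) + a / Real.sqrt n * S) / Real.sqrt n := by
    intro u
    simp only [step, add_mul, sum_add_distrib, ← mul_sum]
    rfl
  refine ⟨?_, ?_⟩
  · have hu : ∀ u, step n (fun u l => M u l + a / Real.sqrt n) x u ^ 2
        ≤ 2 / n * ((∑ l, M u l * x l) ^ 2 + a ^ 2 / n * S ^ 2) := by
      intro u
      rw [e, div_pow, hs2, div_le_iff₀ hn']
      refine (add_sq_le).trans (le_of_eq ?_)
      rw [mul_pow, div_pow, hs2]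
      field_simp
    refine (sum_le_sum fun u _ => hu u).trans ?_
    rw [← mul_sum, sum_add_distrib, sum_const, card_univ, Fintype.card_fin, nsmul_eq_mul]
    have h3 : (r : ℝ) * (a ^ 2 / n * S ^ 2) ≤ r * w := by
      refine mul_le_mul_of_nonneg_left ?_ hr0
      rw [div_mul_eq_mul_div, div_le_iff₀ hn']
      calc a ^ 2 * S ^ 2 ≤ 1 * (r * w) := by
            gcongr
            exact pow_le_one₀ ha ha1
        _ ≤ w * n := by nlinarith
    calc 2 / (n : ℝ) * (∑ u, (∑ l, M u l * x l) ^ 2 + r * (a ^ 2 / n * S ^ 2))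
        ≤ 2 / n * (Λ * r * w + r * w) := by gcongr
      _ ≤ (2 + 2 * Λ) * w := by
          rw [div_mul_eq_mul_div, div_le_iff₀ hn']
          nlinarith [mul_le_mul_of_nonneg_left hrn' (mul_nonneg (by linarith : (0 : ℝ) ≤ Λ + 1) hw)]
      _ ≤ (2 + 2 * Λ) ^ (k + 1) * r := by
          rw [pow_succ', mul_assoc]
          exact mul_le_mul_of_nonneg_left h1 (by linarith)
  · have hsum : ∑ u, step n (fun u l => M u l + a / Real.sqrt n) x u
        = (∑ u, ∑ l, M u l * x l) / Real.sqrt n + a * r / n * S := by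
      simp only [e, add_div, sum_add_distrib, ← sum_div, sum_const, card_univ, Fintype.card_fin,
        nsmul_eq_mul]
      congr 1
      field_simp
      rw [hs2]; ring
    rw [hsum]
    have hρ0 : 0 ≤ a * r / n := by positivity
    have hρ1 : a * r / n ≤ 1 := by
      rw [div_le_one hn']; nlinarith
    have h4 : -(ζ * r) ≤ (∑ u, ∑ l, M u l * x l) / Real.sqrt n := by
      rw [le_div_iff₀ hs]; linarith
    have h5 := mul_le_mul_of_nonneg_left h2 hρ0
    have h6 : a * r / n * ((k : ℝ) * ζ * r) ≤ (k : ℝ) * ζ * r :=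
      mul_le_of_le_one_left (by positivity) hρ1
    rw [pow_succ']
    push_cast
    linarith

/-- The partial products are good apart from a small probability. -/
theorem good_prob {a Λ ζ : ℝ} (ha : 0 ≤ a) (ha1 : a ≤ 1) (hn : 0 < n) (hr : 0 < r) (hrn : r ≤ n)
    (hΛ : 0 ≤ Λ) (hζ : 0 < ζ) {T : ℝ} :
    ∀ k : ℕ, (2 + 2 * Λ) ^ k ≤ T → (matsLaw r k).real
      {B | ¬ Good n a Λ ζ k (run n k (shiftM (a / Real.sqrt n) B) fun _ => 1)}
      ≤ k * (Real.exp (-((r : ℝ) * (Λ / 4 - 1 / 2))) + Real.exp (-(ζ ^ 2 * n / (2 * T)))) := by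
  intro k
  induction k with
  | zero =>
    intro _
    have : {B : Mats r 0 | ¬ Good n a Λ ζ 0 (run n 0 (shiftM (a / Real.sqrt n) B) fun _ => 1)}
        = ∅ := by
      refine Set.eq_empty_of_forall_notMem fun B hB => hB ?_
      constructor <;> simp [run]
    rw [this]; simp
  | succ k ih =>
    intro hT
    have hb : 1 ≤ 2 + 2 * Λ := by linarith
    have hTk : (2 + 2 * Λ) ^ k ≤ T := le_trans (pow_le_pow_right₀ hb (Nat.le_succ k)) hT
    have hT0 : 0 < T := lt_of_lt_of_le (pow_pos (by linarith) k) hTk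
    have ih := ih hTk
    set e1 := Real.exp (-((r : ℝ) * (Λ / 4 - 1 / 2)))
    set e2 := Real.exp (-(ζ ^ 2 * n / (2 * T)))
    set xk : Mats r k → Fin r → ℝ := fun B => run n k (shiftM (a / Real.sqrt n) B) fun _ => 1
      with hxk
    have hxm : Measurable xk :=
      (measurable_run n k fun _ => 1).comp
        (show Measurable (shiftM (r := r) (k := k) (a / Real.sqrt n)) by unfold shiftM; fun_prop)
    set mp := MeasurableEquiv.piFinSuccAbove (fun _ : Fin (k + 1) => Fin r → Fin r → ℝ) (Fin.last k)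
    have hmp : MeasurePreserving mp (matsLaw r (k + 1)) ((matLaw r).prod (matsLaw r k)) :=
      measurePreserving_piFinSuccAbove (fun _ : Fin (k + 1) => matLaw r) (Fin.last k)
    set P : Set ((Fin r → Fin r → ℝ) × Mats r k) := {p | ¬ Good n a Λ ζ k (xk p.2)}
    set S : Set ((Fin r → Fin r → ℝ) × Mats r k) := {p | Good n a Λ ζ k (xk p.2) ∧
      (Λ * r * ∑ l, xk p.2 l ^ 2 < ∑ u, (∑ l, p.1 u l * xk p.2 l) ^ 2 ∨
        ∑ u, ∑ l, p.1 u l * xk p.2 l ≤ -(ζ * r * Real.sqrt n))}
    have hxl : ∀ l, Measurable fun p : (Fin r → Fin r → ℝ) × Mats r k => xk p.2 l := fun l =>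
      (measurable_pi_apply l).comp (hxm.comp measurable_snd)
    have hml : ∀ u l, Measurable fun p : (Fin r → Fin r → ℝ) × Mats r k => p.1 u l := fun u l => by
      fun_prop
    have hGm : MeasurableSet {p : (Fin r → Fin r → ℝ) × Mats r k | Good n a Λ ζ k (xk p.2)} :=
      (measurableSet_le (Finset.measurable_sum _ fun l _ => (hxl l).pow_const 2)
        measurable_const).inter
        (measurableSet_le measurable_const (Finset.measurable_sum _ fun l _ => hxl l))
    have hlin : ∀ u, Measurable fun p : (Fin r → Fin r → ℝ) × Mats r k =>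
        ∑ l, p.1 u l * xk p.2 l := fun u =>
      Finset.measurable_sum _ fun l _ => (hml u l).mul (hxl l)
    have hPm : MeasurableSet P := hGm.compl
    have hSm : MeasurableSet S := hGm.inter
      ((measurableSet_lt ((Finset.measurable_sum _ fun l _ => (hxl l).pow_const 2).const_mul _)
        (Finset.measurable_sum _ fun u _ => (hlin u).pow_const 2)).union
        (measurableSet_le (Finset.measurable_sum _ fun u _ => hlin u) measurable_const))
    have hsub : {B : Mats r (k + 1) |
        ¬ Good n a Λ ζ (k + 1) (run n (k + 1) (shiftM (a / Real.sqrt n) B) fun _ => 1)}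
        ⊆ mp ⁻¹' (P ∪ S) := by
      intro B hB
      by_contra hcon
      have e1' : (mp B).1 = B (Fin.last k) := rfl
      have e2' : (mp B).2 = fun i : Fin k => B i.castSucc := by
        funext i
        simp [mp, MeasurableEquiv.piFinSuccAbove, Fin.init]
      simp only [P, S, Set.mem_preimage, Set.mem_union, Set.mem_ofPred_eq, not_or, not_not,
        not_and, not_lt, not_le] at hcon
      obtain ⟨hg, hrest⟩ := hcon
      obtain ⟨h1, h2⟩ := hrest hg
      rw [e1', e2'] at h1 h2
      rw [e2'] at hg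
      exact hB (good_step ha ha1 hn hrn hΛ hζ.le hg (B (Fin.last k)) h1 h2.le)
    have hS : ((matLaw r).prod (matsLaw r k)).real S ≤ e1 + e2 := by
      refine prod_real_le _ _ hSm (by positivity) fun B' => ?_
      by_cases hg : Good n a Λ ζ k (xk B')
      swap
      · have : {x | (x, B') ∈ S} = ∅ := Set.eq_empty_of_forall_notMem fun x hx => hg hx.1
        rw [this]
        simp only [measureReal_empty]
        positivity
      refine (measureReal_mono (show {x | (x, B') ∈ S} ⊆
        {M | Λ * r * ∑ l, xk B' l ^ 2 < ∑ u, (∑ l, M u l * xk B' l) ^ 2} ∪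
          {M | ∑ u, ∑ l, M u l * xk B' l ≤ -(ζ * r * Real.sqrt n)} from fun M hM => hM.2)).trans
        ((measureReal_union_le _ _).trans (add_le_add (mat_norm_tail r _ Λ) ?_))
      have hr' : (0 : ℝ) < r := by exact_mod_cast hr
      have hn' : (0 : ℝ) < n := by exact_mod_cast hn
      refine (mat_sum_tail r (xk B') (t := ζ * r * Real.sqrt n) (by positivity)
        (V := r * (T * r)) (by positivity) ?_).trans (le_of_eq ?_)
      · exact mul_le_mul_of_nonneg_left (hg.1.trans (mul_le_mul_of_nonneg_right hTk hr'.le)) hr'.le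
      · congr 1
        rw [mul_pow, Real.sq_sqrt hn'.le]
        field_simp
    have hP : ((matLaw r).prod (matsLaw r k)).real P ≤ k * (e1 + e2) := by
      have : P = Set.univ ×ˢ {B : Mats r k | ¬ Good n a Λ ζ k (xk B)} := by ext p; simp [P]
      rw [this, measureReal_prod_prod, probReal_univ, one_mul]
      exact ih
    refine (measureReal_mono hsub).trans ?_
    rw [hmp.measureReal_preimage (hPm.union hSm).nullMeasurableSet]
    refine (measureReal_union_le _ _).trans ?_
    push_cast
    linarith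

/-! ### The constants -/

/-- The class size. -/
abbrev blk (n j : ℕ) : ℕ := n / (j + 1)

/-- The bound on the growth of the squared norm. -/
def cT (j : ℕ) : ℝ := (2 + 2 * (16 * ((j : ℝ) + 1) + 4)) ^ j

/-- A lower bound on the growth rate. -/
def cρ (j : ℕ) : ℝ := 1 / (4 * ((j : ℝ) + 1))

/-- The allowed loss in one step. -/
def cζ (j : ℕ) : ℝ := cρ j ^ j / (2 * ((j : ℝ) + 1))

/-- The exponential rate. -/
def cκ (j : ℕ) : ℝ := cζ j ^ 2 / (2 * cT j)

/-- The threshold for the total. -/
def cq (n j : ℕ) (a : ℝ) : ℝ := (a * blk n j / n) ^ j * blk n j / 2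

lemma one_le_cT (j : ℕ) : 1 ≤ cT j :=
  one_le_pow₀ (by have : (0 : ℝ) ≤ j := Nat.cast_nonneg j; linarith)

lemma cρ_pos (j : ℕ) : 0 < cρ j := by unfold cρ; positivity

lemma cζ_pos (j : ℕ) : 0 < cζ j := by have := cρ_pos j; unfold cζ; positivity

lemma cζ_le_one (j : ℕ) : cζ j ≤ 1 := by
  have hj : (0 : ℝ) ≤ j := Nat.cast_nonneg j
  have h : cρ j ^ j ≤ 1 :=
    pow_le_one₀ (cρ_pos j).le (by rw [cρ, div_le_one (by positivity)]; linarith)
  rw [cζ, div_le_one (by positivity)]
  linarith

lemma cκ_pos (j : ℕ) : 0 < cκ j := by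
  have := cζ_pos j
  have := one_le_cT j
  unfold cκ
  positivity

lemma cκ_le (j : ℕ) : cκ j ≤ 1 := by
  have h1 := cζ_le_one j
  have h2 := cζ_pos j
  have h3 := one_le_cT j
  rw [cκ, div_le_one (by linarith)]
  nlinarith

/-- The class size is comparable with `n / (j + 1)`. -/
lemma blk_ge {n j : ℕ} (hn : 2 * (j + 1) ≤ n) :
    1 ≤ blk n j ∧ (n : ℝ) ≤ 2 * ((j : ℝ) + 1) * blk n j := by
  refine ⟨(Nat.le_div_iff_mul_le (Nat.succ_pos j)).2 (by omega), ?_⟩
  have h2 := Nat.div_add_mod n (j + 1)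
  have h3 : n % (j + 1) < j + 1 := Nat.mod_lt n (Nat.succ_pos j)
  have h4 : n ≤ 2 * ((j + 1) * (n / (j + 1))) := by omega
  calc (n : ℝ) ≤ ((2 * ((j + 1) * (n / (j + 1))) : ℕ) : ℝ) := by exact_mod_cast h4
    _ = _ := by simp only [blk]; push_cast; ring

lemma cρ_le {n j : ℕ} {a : ℝ} (ha : 1 / 2 ≤ a) (hn : 2 * (j + 1) ≤ n) :
    cρ j ≤ a * blk n j / n := by
  obtain ⟨h1, h2⟩ := blk_ge hn
  have hn' : (0 : ℝ) < n := by exact_mod_cast (by omega : 0 < n)
  rw [cρ, div_le_div_iff₀ (by positivity) hn']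
  have := mul_le_mul_of_nonneg_right ha
    (by positivity : (0 : ℝ) ≤ (blk n j : ℝ) * (4 * ((j : ℝ) + 1)))
  linarith

lemma blk_le (n j : ℕ) : blk n j ≤ n := Nat.div_le_self _ _

lemma cq_le {n j : ℕ} {a : ℝ} (ha : 0 ≤ a) (ha1 : a ≤ 1) (hn : 0 < n) : cq n j a ≤ cT j * n := by
  have hn' : (0 : ℝ) < n := by exact_mod_cast hn
  have hb : (blk n j : ℝ) ≤ n := by exact_mod_cast blk_le n j
  have h : (a * blk n j / n) ^ j ≤ 1 :=
    pow_le_one₀ (by positivity) (by rw [div_le_one hn']; nlinarith [Nat.cast_nonneg (α := ℝ) (blk n j)])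
  have := one_le_cT j
  unfold cq
  nlinarith [Nat.cast_nonneg (α := ℝ) (blk n j)]

lemma exp_norm_le {n j : ℕ} (hn : 2 * (j + 1) ≤ n) :
    Real.exp (-((blk n j : ℝ) * ((16 * ((j : ℝ) + 1) + 4) / 4 - 1 / 2))) ≤
      Real.exp (-(2 * (n : ℝ))) := by
  obtain ⟨h1, h2⟩ := blk_ge hn
  refine Real.exp_le_exp.2 ?_
  nlinarith [Nat.cast_nonneg (α := ℝ) (blk n j)]

/-- The shifted total is rarely below the threshold. -/
theorem total_shift_tail {n j : ℕ} {a : ℝ} (ha : 1 / 2 ≤ a) (ha1 : a ≤ 1)
    (hn : 2 * (j + 1) ≤ n) :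
    (matsLaw (blk n j) j).real {B | total n j (shiftM (a / Real.sqrt n) B) < cq n j a}
      ≤ 2 * j * Real.exp (-(cκ j * n)) := by
  obtain ⟨h1, h2⟩ := blk_ge hn
  have hΛ : (0 : ℝ) ≤ 16 * ((j : ℝ) + 1) + 4 := by positivity
  have hn' : (0 : ℝ) ≤ n := Nat.cast_nonneg n
  have h := good_prob (a := a) (n := n) (r := blk n j) (ζ := cζ j) (T := cT j) (by linarith) ha1
    (by omega) h1 (blk_le n j) hΛ (cζ_pos j) j le_rfl
  have hsub : {B : Mats (blk n j) j | total n j (shiftM (a / Real.sqrt n) B) < cq n j a} ⊆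
      {B | ¬ Good n a (16 * ((j : ℝ) + 1) + 4) (cζ j) j
        (run n j (shiftM (a / Real.sqrt n) B) fun _ => 1)} := by
    intro B hB hg
    have h3 : total n j (shiftM (a / Real.sqrt n) B) < cq n j a := hB
    have h4 := hg.2
    rw [total] at h3
    rw [cq] at h3
    have h5 : (j : ℝ) * cζ j ≤ cρ j ^ j / 2 := by
      have hp := pow_pos (cρ_pos j) j
      rw [cζ, mul_div_assoc', div_le_iff₀ (by positivity)]
      nlinarith
    have h6 : cρ j ^ j ≤ (a * blk n j / n) ^ j :=
      pow_le_pow_left₀ (cρ_pos j).le (cρ_le ha hn) j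
    have h7 := mul_le_mul_of_nonneg_right (h5.trans (by linarith : cρ j ^ j / 2 ≤ (a * blk n j / n) ^ j / 2))
      (Nat.cast_nonneg (α := ℝ) (blk n j))
    linarith
  refine (measureReal_mono hsub).trans (h.trans ?_)
  rw [mul_comm 2 (j : ℝ), mul_assoc]
  refine mul_le_mul_of_nonneg_left ?_ (Nat.cast_nonneg j)
  rw [two_mul (Real.exp _)]
  refine add_le_add ((exp_norm_le hn).trans ?_) (le_of_eq ?_)
  · refine Real.exp_le_exp.2 ?_
    nlinarith [cκ_le j]
  · rw [cκ, div_mul_eq_mul_div]

/-- The unshifted total is rarely of more than linear size. -/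
theorem total_abs_tail {n j : ℕ} (hn : 2 * (j + 1) ≤ n) :
    (matsLaw (blk n j) j).real {B | cT j * n < |total n j B|}
      ≤ 2 * j * Real.exp (-(2 * (n : ℝ))) := by
  obtain ⟨h1, h2⟩ := blk_ge hn
  have hT := one_le_cT j
  have hn' : (0 : ℝ) ≤ n := Nat.cast_nonneg n
  have hΛ : (0 : ℝ) ≤ 16 * ((j : ℝ) + 1) + 4 := by positivity
  have h := good_prob (a := 0) (n := n) (r := blk n j) (ζ := 2 * cT j) (T := cT j) le_rfl zero_le_one
    (by omega) h1 (blk_le n j) hΛ (by linarith) j le_rfl
  have hsub : {B : Mats (blk n j) j | cT j * n < |total n j B|} ⊆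
      {B | ¬ Good n 0 (16 * ((j : ℝ) + 1) + 4) (2 * cT j) j
        (run n j (shiftM (0 / Real.sqrt n) B) fun _ => 1)} := by
    intro B hB hg
    have h3 : cT j * n < |total n j B| := hB
    rw [show shiftM (0 / Real.sqrt n) B = B by funext i u l; simp [shiftM]] at hg
    have h4 := sq_sum_le_card_mul_sum_sq (s := (univ : Finset (Fin (blk n j))))
      (f := run n j B fun _ => 1)
    rw [card_univ, Fintype.card_fin, ← total] at h4
    have hb : (blk n j : ℝ) ≤ n := by exact_mod_cast blk_le n j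
    have hb0 : (0 : ℝ) ≤ blk n j := Nat.cast_nonneg _
    have h5 : total n j B ^ 2 ≤ (cT j * n) ^ 2 :=
      calc total n j B ^ 2 ≤ (blk n j : ℝ) * (cT j * blk n j) :=
            h4.trans (mul_le_mul_of_nonneg_left hg.1 hb0)
        _ ≤ n * (cT j * n) := by gcongr
        _ ≤ cT j * (n * (cT j * n)) := le_mul_of_one_le_left (by positivity) hT
        _ = (cT j * n) ^ 2 := by ring
    exact absurd (abs_le_of_sq_le_sq h5 (by positivity)) (not_le.2 h3)
  refine (measureReal_mono hsub).trans (h.trans ?_)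
  rw [mul_comm 2 (j : ℝ), mul_assoc]
  refine mul_le_mul_of_nonneg_left ?_ (Nat.cast_nonneg j)
  rw [two_mul (Real.exp _)]
  refine add_le_add (exp_norm_le hn) (Real.exp_le_exp.2 ?_)
  rw [neg_le_neg_iff, le_div_iff₀ (by linarith), mul_pow]
  nlinarith [mul_nonneg hn' (mul_nonneg (by linarith : (0 : ℝ) ≤ cT j) (sub_nonneg.2 hT))]

/-! ### The classes of vertices -/

/-- A vertex of a class. -/
def node (n j : ℕ) (i : Fin (j + 1)) (u : Fin (blk n j)) : Fin n :=
  ⟨i * blk n j + u, by
    have h1 := i.isLt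
    have h2 := u.isLt
    have h3 := Nat.div_mul_le_self n (j + 1)
    have h4 : ((i : ℕ) + 1) * blk n j ≤ (j + 1) * blk n j := Nat.mul_le_mul_right _ h1
    rw [Nat.succ_mul] at h4
    rw [mul_comm (n / (j + 1))] at h3
    show (i : ℕ) * blk n j + u < n
    simp only [blk] at *
    omega⟩

lemma node_lt {n j : ℕ} {i i' : Fin (j + 1)} (h : i < i') (u u' : Fin (blk n j)) :
    node n j i u < node n j i' u' := by
  show (i : ℕ) * blk n j + u < (i' : ℕ) * blk n j + u'
  have h2 := u.isLt
  have h4 : ((i : ℕ) + 1) * blk n j ≤ (i' : ℕ) * blk n j :=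
    Nat.mul_le_mul_right _ (Nat.succ_le_iff.2 h)
  rw [Nat.succ_mul] at h4
  omega

lemma node_inj {n j : ℕ} {i i' : Fin (j + 1)} {u u' : Fin (blk n j)}
    (h : node n j i u = node n j i' u') : i = i' ∧ u = u' := by
  rcases lt_trichotomy i i' with h1 | rfl | h1
  · exact absurd h (node_lt h1 u u').ne
  · refine ⟨rfl, Fin.ext ?_⟩
    have h2 : (i : ℕ) * blk n j + u = (i : ℕ) * blk n j + u' := congrArg Fin.val h
    omega
  · exact absurd h (node_lt h1 u' u).ne'

/-- An edge between consecutive classes. -/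
def idx (n j : ℕ) (i : Fin j) (u l : Fin (blk n j)) : Edge n :=
  ⟨(node n j i.castSucc l, node n j i.succ u), node_lt (Fin.castSucc_lt_succ) l u⟩

/-- The blocks of couplings between consecutive classes. -/
def blocks (n j : ℕ) (g : Edge n → ℝ) : Mats (blk n j) j := fun i u l => g (idx n j i u l)

lemma measurePreserving_blocks (n j : ℕ) :
    MeasurePreserving (blocks n j) (law n) (matsLaw (blk n j) j) := by
  set f : Fin j × Fin (blk n j) × Fin (blk n j) → Edge n := fun p => idx n j p.1 p.2.1 p.2.2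
  have hf : Function.Injective f := by
    rintro ⟨i, u, l⟩ ⟨i', u', l'⟩ h
    have h' := congrArg (fun e : Edge n => e.1) h
    simp only [f, idx, Prod.mk.injEq] at h'
    obtain ⟨h1, h2⟩ := h'
    obtain ⟨e1, e2⟩ := node_inj h1
    obtain ⟨-, e3⟩ := node_inj h2
    simp [Fin.castSucc_inj.1 e1, e2, e3]
  have h1 : MeasurePreserving (fun (g : Edge n → ℝ) p => g (f p)) (law n)
      (gaussVec (Fin j × Fin (blk n j) × Fin (blk n j))) := measurePreserving_comp f hf
  have h2 := measurePreserving_curry (ι := Fin j) (κ := Fin (blk n j) × Fin (blk n j))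
    (gaussianReal 0 1)
  have h3 := measurePreserving_pi (fun _ : Fin j => gaussVec (Fin (blk n j) × Fin (blk n j)))
    (fun _ : Fin j => matLaw (blk n j))
    (f := fun _ g u l => g (u, l)) fun _ =>
      measurePreserving_curry (ι := Fin (blk n j)) (κ := Fin (blk n j)) (gaussianReal 0 1)
  exact h3.comp (h2.comp h1)

/-- The couplings multiplied by the spins of their two ends. -/
def sig (σ : Fin n → Bool) (g : Edge n → ℝ) : Edge n → ℝ := fun e => g e * bond e σ

lemma bond_eq (e : Edge n) (σ : Fin n → Bool) : bond e σ = 1 ∨ bond e σ = -1 := by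
  unfold bond spinVal
  cases σ e.1.1 <;> cases σ e.1.2 <;> simp

lemma measurePreserving_sig (σ : Fin n → Bool) : MeasurePreserving (sig σ) (law n) (law n) := by
  refine measurePreserving_pi (f := fun (e : Edge n) (t : ℝ) => t * bond e σ) _ _ fun e => ?_
  rcases bond_eq e σ with h | h
  · simp only [h, mul_one]
    exact MeasurePreserving.id _
  · simp only [h, mul_neg, mul_one]
    refine ⟨measurable_neg, ?_⟩
    simpa using gaussianReal_map_neg (μ := 0) (v := 1)

/-- The observable of a configuration. -/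
def Qv (n j : ℕ) (σ : Fin n → Bool) (g : Edge n → ℝ) : ℝ := total n j (blocks n j (sig σ g))

lemma measurable_Qv (n j : ℕ) (σ : Fin n → Bool) : Measurable (Qv n j σ) :=
  ((measurable_total n j).comp (measurePreserving_blocks n j).measurable).comp
    (measurePreserving_sig σ).measurable

end

end Vale.Agent.P146.Crit
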