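import Vale.Agent.P146.Crit.Cycles
import Mathlib.Analysis.PSeries

/-!
# P146: the variance of the free energy is unbounded around the critical point
-/

namespace Vale.Agent.P146.Crit

open MeasureTheory ProbabilityTheory Finset Filter
open Vale.Agent.P146.Super (law MG coef)

noncomputable section

/-- The variance dominates the cycle coefficients of any finite set of lengths. -/
lemma variance_ge_cycles {n : ℕ} (hn : 2 ≤ n) {β : ℝ} (hβ : 0 ≤ β) (J : Finset ℕ) :
    ∑ j ∈ J, ∑ G ∈ cycles n j, coef (freeEnergy n β) G ^ 2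
      ≤ variance (freeEnergy n β) (law n) := by
  classical
  have hL : MemLp (freeEnergy n β) 2 (law n) :=
    memLp_of_abs_le (measurable_freeEnergy n β) (by positivity) hβ (freeEnergy_abs hn hβ)
  have hdis : (J : Set ℕ).PairwiseDisjoint (cycles n) := fun a _ b _ hab =>
    disjoint_left.2 fun G h1 h2 => hab (by
      have := (size_mem_cycles h1).symm.trans (size_mem_cycles h2)
      omega)
  have h0 : (0 : MG n) ∉ J.biUnion (cycles n) := by
    rw [mem_biUnion]
    rintro ⟨j, -, hj⟩
    have h := size_mem_cycles hj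
    simp [Super.size] at h
  rw [← sum_biUnion hdis, Super.variance_eq_total_sub hL]
  have h := Super.sum_coef_sq_le hL (insert (0 : MG n) (J.biUnion (cycles n)))
  rw [sum_insert h0] at h
  linarith

/-- **Divergence around the critical point.** -/
theorem variance_near_critical (M : ℝ) : ∃ δ : ℝ, 0 < δ ∧ ∃ N : ℕ, ∀ n : ℕ, N ≤ n →
    ∀ β : ℝ, |β - 1| ≤ δ → M ≤ variance (freeEnergy n β) (law n) := by
  classical
  obtain ⟨L, hL⟩ := (Real.tendsto_sum_range_one_div_nat_succ_atTop.eventually_ge_atTop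
    (3 * 16384 * M)).exists
  set J : Finset ℕ := (range L).map ⟨fun i => i + 2, fun a b h => by simpa using h⟩
  set S := insert (1 : ℝ) (J.image cη)
  have hS : S.Nonempty := insert_nonempty _ _
  set η : ℝ := min (1 / (4 * ((L : ℝ) + 2))) (S.min' hS / 2)
  have hη0 : 0 < η := by
    refine lt_min (by positivity) (half_pos ((lt_min'_iff S hS).2 fun x hx => ?_))
    rcases mem_insert.1 hx with rfl | hx
    · exact one_pos
    · obtain ⟨j, -, rfl⟩ := mem_image.1 hx
      exact cη_pos j
  have hη1 : η ≤ 1 / (4 * ((L : ℝ) + 2)) := min_le_left _ _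
  have hη8 : η ≤ 1 / 8 := hη1.trans (by
    rw [div_le_div_iff₀ (by positivity) (by norm_num)]
    linarith [Nat.cast_nonneg (α := ℝ) L])
  set a := 1 - η
  have ha : 1 / 2 ≤ a := by simp only [a]; linarith
  have ha1 : a < 1 := by simp only [a]; linarith
  have hj : ∀ j ∈ J, ∀ᶠ n : ℕ in atTop, ∀ β : ℝ, |β - a| ≤ cη j → 1 / 2 ≤ β →
      1 / (16384 * ((j : ℝ) + 1)) ≤ ∑ G ∈ cycles n j, coef (freeEnergy n β) G ^ 2 := by
    intro j hj
    obtain ⟨i, hi, rfl⟩ := mem_map.1 hj
    have hiL : ((i + 2 : ℕ) : ℝ) ≤ (L : ℝ) + 1 := by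
      have : i + 2 ≤ L + 1 := by have := mem_range.1 hi; omega
      exact_mod_cast this
    refine cycles_lower (show 2 ≤ i + 2 by omega) ha ha1 ?_
    have hb := one_add_mul_le_pow (a := -η) (by linarith) (i + 2)
    have h1 : ((i + 2 : ℕ) : ℝ) * η ≤ 1 / 4 := by
      refine (mul_le_mul hiL hη1 hη0.le (by positivity)).trans ?_
      rw [mul_one_div, div_le_div_iff₀ (by positivity) (by norm_num)]
      linarith
    show 1 / 2 ≤ a ^ (i + 2)
    rw [show a = 1 + -η from sub_eq_add_neg 1 η]
    linarith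
  obtain ⟨N, hN⟩ := eventually_atTop.1 ((eventually_all_finset J).2 hj)
  refine ⟨η, hη0, max N 2, fun n hn β hβ => ?_⟩
  have hβ' := abs_le.1 hβ
  refine le_trans ?_ (variance_ge_cycles (le_trans (le_max_right _ _) hn) (by linarith) J)
  refine le_trans ?_ (sum_le_sum fun j hj' => hN n (le_trans (le_max_left _ _) hn) j hj' β ?_
    (by linarith))
  · have h1 : ∀ i : ℕ, 1 / (3 * 16384) * (1 / ((i : ℝ) + 1))
        ≤ 1 / (16384 * (((i + 2 : ℕ) : ℝ) + 1)) := by
      intro i
      rw [div_mul_div_comm, mul_one, div_le_div_iff₀ (by positivity) (by positivity)]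
      push_cast
      nlinarith [Nat.cast_nonneg (α := ℝ) i]
    rw [sum_map]
    refine le_trans ?_ (sum_le_sum fun i _ => h1 i)
    rw [← mul_sum, one_div_mul_eq_div, le_div_iff₀ (by norm_num)]
    linarith
  · have h2 : S.min' hS ≤ cη j := min'_le _ _ (mem_insert_of_mem (mem_image_of_mem cη hj'))
    have h3 : η ≤ S.min' hS / 2 := min_le_right _ _
    refine le_trans ?_ h2
    simp only [a]
    rw [abs_le]
    constructor <;> linarith

end

end Vale.Agent.P146.Crit
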