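import Vale.Agent.P146.Crit.Layers
import Vale.Agent.P146.Super.Reduce
import Vale.Agent.P146.Super.NBTail

/-!
# P146, criticality: the Gibbs mass of the configurations with a small observable

Below the critical point the partition function has a bounded second moment ratio, so the free
energy is close to the annealed one.  The planted expectation shows that configurations with a
small observable contribute an exponentially small part of the annealed partition function.
-/

namespace Vale.Agent.P146.Crit

open MeasureTheory ProbabilityTheory Finset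
open Vale.Agent.P146.Super (law bond gibbs)
open Vale.Agent.P157 (gaussVec)

noncomputable section

variable {n : ℕ}

/-- The logarithm of the annealed partition function. -/
def ann (n : ℕ) (β : ℝ) : ℝ :=
  n * Real.log 2 + Fintype.card (Edge n) * (β / Real.sqrt n) ^ 2 / 2

/-- The partition function. -/
def Z (n : ℕ) (β : ℝ) (g : Edge n → ℝ) : ℝ := ∑ σ, Real.exp (β * energy g σ)

lemma Z_pos (β : ℝ) (g : Edge n → ℝ) : 0 < Z n β g := sum_exp_pos β g

lemma measurable_Z (n : ℕ) (β : ℝ) : Measurable (Z n β) := by unfold Z energy; fun_prop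

/-- The part of the partition function with a small observable. -/
def ZA (n j : ℕ) (β q : ℝ) (g : Edge n → ℝ) : ℝ :=
  ∑ σ, if Qv n j σ g < q then Real.exp (β * energy g σ) else 0

lemma ZA_nonneg (j : ℕ) (β q : ℝ) (g : Edge n → ℝ) : 0 ≤ ZA n j β q g :=
  sum_nonneg fun σ _ => by split_ifs <;> positivity

lemma measurable_ZA (n j : ℕ) (β q : ℝ) : Measurable (ZA n j β q) :=
  Finset.measurable_sum _ fun σ _ =>
    Measurable.ite (measurableSet_lt (measurable_Qv n j σ) measurable_const)
      (by unfold energy; fun_prop) measurable_const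

lemma energy_eq_sig (g : Edge n → ℝ) (σ : Fin n → Bool) :
    energy g σ = (∑ e, sig σ g e) / Real.sqrt n := rfl

lemma integrable_exp_lin (w : Edge n → ℝ) :
    Integrable (fun g : Edge n → ℝ => Real.exp (∑ e, w e * g e)) (law n) := by
  simp only [Real.exp_sum]
  exact Integrable.fintype_prod (f := fun e t => Real.exp (w e * t)) fun e => (integral_exp_mul _).1

lemma integral_exp_lin (w : Edge n → ℝ) :
    ∫ g : Edge n → ℝ, Real.exp (∑ e, w e * g e) ∂law n = Real.exp ((∑ e, w e ^ 2) / 2) := by
  simp only [Real.exp_sum]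
  rw [integral_fintype_prod_eq_prod (f := fun (e : Edge n) (t : ℝ) => Real.exp (w e * t))]
  simp only [(integral_exp_mul _).2]
  rw [← Real.exp_sum, sum_div]

lemma exp_energy_eq (β : ℝ) (g : Edge n → ℝ) (σ : Fin n → Bool) :
    Real.exp (β * energy g σ) = Real.exp (∑ e, β / Real.sqrt n * bond e σ * g e) := by
  rw [energy_eq_sig, sum_div, mul_sum]
  exact congrArg Real.exp (sum_congr rfl fun e _ => by rw [sig]; ring)

lemma integrable_exp_energy (β : ℝ) (σ : Fin n → Bool) :
    Integrable (fun g => Real.exp (β * energy g σ)) (law n) := by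
  simp only [exp_energy_eq]
  exact integrable_exp_lin _

lemma bond_sq (e : Edge n) (σ : Fin n → Bool) : bond e σ ^ 2 = 1 := by
  rcases bond_eq e σ with h | h <;> simp [h]

lemma integral_exp_energy (β : ℝ) (σ : Fin n → Bool) :
    ∫ g, Real.exp (β * energy g σ) ∂law n
      = Real.exp (Fintype.card (Edge n) * (β / Real.sqrt n) ^ 2 / 2) := by
  simp only [exp_energy_eq, integral_exp_lin, mul_pow, bond_sq, mul_one, sum_const, card_univ,
    nsmul_eq_mul]

lemma exp_ann (n : ℕ) (β : ℝ) :
    Real.exp (ann n β) = 2 ^ n * Real.exp (Fintype.card (Edge n) * (β / Real.sqrt n) ^ 2 / 2) := by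
  rw [ann, Real.exp_add, ← Real.rpow_natCast (2 : ℝ), Real.rpow_def_of_pos two_pos, mul_comm (n : ℝ)]

lemma integrable_Z (β : ℝ) : Integrable (Z n β) (law n) :=
  integrable_finsetSum _ fun σ _ => integrable_exp_energy β σ

lemma integral_Z (β : ℝ) : ∫ g, Z n β g ∂law n = Real.exp (ann n β) := by
  unfold Z
  rw [integral_finsetSum _ fun σ _ => integrable_exp_energy β σ]
  simp only [integral_exp_energy, sum_const, card_univ, nsmul_eq_mul, card_conf]
  rw [exp_ann]

lemma integrable_ZA (j : ℕ) (β q : ℝ) : Integrable (ZA n j β q) (law n) := by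
  refine (integrable_Z β).mono' (measurable_ZA n j β q).aestronglyMeasurable
    (ae_of_all _ fun g => ?_)
  rw [Real.norm_eq_abs, abs_of_nonneg (ZA_nonneg j β q g)]
  exact sum_le_sum fun σ _ => by split_ifs <;> [exact le_rfl; positivity]

/-- Planting: the annealed mass of the configurations with a small observable. -/
theorem integral_ZA_le {j : ℕ} {a : ℝ} (ha : 1 / 2 ≤ a) (ha1 : a ≤ 1) (hn : 2 * (j + 1) ≤ n) :
    ∫ g, ZA n j a (cq n j a) g ∂law n
      ≤ Real.exp (ann n a) * (2 * j * Real.exp (-(cκ j * n))) := by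
  classical
  set c : ℝ := a / Real.sqrt n
  set q := cq n j a
  set S : Set (Edge n → ℝ) := {h | total n j (blocks n j h) < q}
  have hS : MeasurableSet S := measurableSet_lt
    ((measurable_total n j).comp (measurePreserving_blocks n j).measurable) measurable_const
  set F : (Edge n → ℝ) → ℝ := S.indicator fun _ => 1
  have hFm : Measurable F := measurable_const.indicator hS
  have hFb : ∀ h, 0 ≤ F h ∧ F h ≤ 1 := fun h => by
    by_cases hh : h ∈ S <;> simp [F, hh]
  have hexp : Measurable fun h : Edge n → ℝ => Real.exp (c * ∑ e, h e) := by fun_prop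
  have hint : ∀ σ, Integrable (fun g => Real.exp (c * ∑ e, sig σ g e) * F (sig σ g)) (law n) :=
    fun σ => (integrable_exp_energy a σ).mono'
      ((hexp.mul hFm).comp (measurePreserving_sig σ).measurable).aestronglyMeasurable
      (ae_of_all _ fun g => by
        have h := hFb (sig σ g)
        rw [Real.norm_eq_abs, abs_of_nonneg (mul_nonneg (Real.exp_pos _).le h.1)]
        refine (mul_le_of_le_one_right (Real.exp_pos _).le h.2).trans_eq (congrArg Real.exp ?_)
        rw [energy_eq_sig]; simp only [c]; ring)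
  have hA : ∀ g, ZA n j a q g = ∑ σ, Real.exp (c * ∑ e, sig σ g e) * F (sig σ g) := by
    intro g
    refine sum_congr rfl fun σ _ => ?_
    have e : a * energy g σ = c * ∑ e, sig σ g e := by rw [energy_eq_sig]; simp only [c]; ring
    by_cases h : Qv n j σ g < q
    · rw [if_pos h, e, show F (sig σ g) = 1 from Set.indicator_of_mem (s := S) h _, mul_one]
    · rw [if_neg h, show F (sig σ g) = 0 from Set.indicator_of_notMem (s := S) h _, mul_zero]
  have hone : ∀ σ, ∫ g, Real.exp (c * ∑ e, sig σ g e) * F (sig σ g) ∂law n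
      ≤ Real.exp (Fintype.card (Edge n) * c ^ 2 / 2) * (2 * j * Real.exp (-(cκ j * n))) := by
    intro σ
    have h := integral_map (μ := law n) (measurePreserving_sig σ).measurable.aemeasurable
      (f := fun h => Real.exp (c * ∑ e, h e) * F h) (hexp.mul hFm).aestronglyMeasurable
    rw [(measurePreserving_sig σ).map_eq] at h
    rw [← h, show law n = gaussVec (Edge n) from rfl, integral_tilt c hFm]
    refine mul_le_mul_of_nonneg_left ?_ (Real.exp_pos _).le
    set S' : Set (Mats (blk n j) j) := {B | total n j (shiftM c B) < q}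
    have hS' : MeasurableSet S' := measurableSet_lt ((measurable_total n j).comp
      (show Measurable (shiftM (r := blk n j) (k := j) c) by unfold shiftM; fun_prop)) measurable_const
    have e : (fun g : Edge n → ℝ => F fun i => g i + c)
        = (blocks n j ⁻¹' S').indicator 1 := by
      funext g
      rfl
    rw [e, integral_indicator_one ((measurePreserving_blocks n j).measurable hS'),
      show gaussVec (Edge n) = law n from rfl,
      (measurePreserving_blocks n j).measureReal_preimage hS'.nullMeasurableSet]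
    exact total_shift_tail ha ha1 hn
  simp only [hA]
  rw [integral_finsetSum _ fun σ _ => hint σ]
  refine (sum_le_sum fun σ _ => hone σ).trans_eq ?_
  rw [sum_const, card_univ, nsmul_eq_mul, card_conf, exp_ann]
  ring

/-- The sum of a spin configuration. -/
def mag (s : Fin n → Bool) : ℝ := ∑ i, spinVal (s i)

lemma sum_pairs (s : Fin n → Bool) : 2 * ∑ e, bond e s = mag s ^ 2 - n := by
  set f : Fin n × Fin n → ℝ := fun p => spinVal (s p.1) * spinVal (s p.2)
  have hsub : ∑ e, bond e s = ∑ p ∈ univ.filter (fun p : Fin n × Fin n => p.1 < p.2), f p := by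
    rw [Finset.sum_subtype (p := fun p : Fin n × Fin n => p.1 < p.2) _ (fun p => by simp) f]
    exact sum_congr rfl fun e _ => rfl
  have hflip : ∑ p ∈ univ.filter (fun p : Fin n × Fin n => p.2 < p.1), f p
      = ∑ p ∈ univ.filter (fun p : Fin n × Fin n => p.1 < p.2), f p := by
    refine sum_nbij' Prod.swap Prod.swap ?_ ?_ ?_ ?_ ?_ <;> simp [f, mul_comm]
  have hdiag : ∑ p ∈ univ.filter (fun p : Fin n × Fin n => p.1 = p.2), f p = n := by
    have : univ.filter (fun p : Fin n × Fin n => p.1 = p.2)
        = (univ : Finset (Fin n)).image fun i => (i, i) := by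
      ext ⟨a, b⟩; simp [eq_comm]
    rw [this, sum_image (by intro a _ b _ h; exact congrArg Prod.fst h)]
    simp [f, Super.spinVal_mul_self]
  have htot : mag s ^ 2 = ∑ p, f p := by
    rw [sq, mag, sum_mul_sum, Fintype.sum_prod_type]
  have h3 : ∀ p : Fin n × Fin n, f p = (if p.1 < p.2 then f p else 0)
      + (if p.1 = p.2 then f p else 0) + (if p.2 < p.1 then f p else 0) := by
    intro p
    rcases lt_trichotomy p.1 p.2 with h | h | h
    · rw [if_pos h, if_neg h.ne, if_neg h.not_gt]; ring
    · rw [if_neg h.not_lt, if_pos h, if_neg h.symm.not_lt]; ring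
    · rw [if_neg h.not_gt, if_neg h.ne', if_pos h]; ring
  rw [htot, sum_congr rfl fun p _ => h3 p, sum_add_distrib, sum_add_distrib, ← sum_filter,
    ← sum_filter, ← sum_filter, hflip, hdiag, hsub]
  ring

lemma sum_exp_mag (t : ℝ) :
    ∑ s : Fin n → Bool, Real.exp (t * mag s) = (2 * Real.cosh t) ^ n := by
  calc ∑ s : Fin n → Bool, Real.exp (t * mag s)
      = ∑ s : Fin n → Bool, ∏ i, Real.exp (t * spinVal (s i)) := by
        simp only [mag, mul_sum, Real.exp_sum]
    _ = ∏ _i : Fin n, ∑ b, Real.exp (t * spinVal b) :=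
        (Fintype.prod_sum (fun (_ : Fin n) b => Real.exp (t * spinVal b))).symm
    _ = _ := by
        rw [prod_const, card_univ, Fintype.card_fin, Fintype.sum_bool, Real.cosh_eq]
        simp [spinVal]
        ring

/-- The second moment ratio. -/
lemma sum_exp_mag_sq {β : ℝ} (hβ : 0 ≤ β) (hβ1 : β < 1) :
    ∑ s : Fin n → Bool, Real.exp (β ^ 2 * mag s ^ 2 / (2 * n))
      ≤ 2 ^ n * (Real.sqrt (1 - β ^ 2))⁻¹ := by
  have h1 : ∀ s : Fin n → Bool, Real.exp (β ^ 2 * mag s ^ 2 / (2 * n))
      = ∫ z, Real.exp (β / Real.sqrt n * mag s * z) ∂gaussianReal 0 1 := fun s => by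
    rw [(integral_exp_mul _).2, mul_pow, div_pow, Real.sq_sqrt (Nat.cast_nonneg n)]
    congr 1
    ring
  simp only [h1]
  rw [← integral_finsetSum _ fun s _ => (integral_exp_mul _).1]
  have h2 : ∀ z : ℝ, ∑ s : Fin n → Bool, Real.exp (β / Real.sqrt n * mag s * z)
      ≤ 2 ^ n * Real.exp (β ^ 2 / 2 * z ^ 2) := by
    intro z
    simp only [mul_right_comm _ (mag _) z]
    rw [sum_exp_mag, mul_pow]
    refine mul_le_mul_of_nonneg_left ?_ (by positivity)
    refine (pow_le_pow_left₀ (Real.cosh_pos _).le (Real.cosh_le_exp_half_sq _) n).trans ?_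
    rw [← Real.exp_nat_mul, Real.exp_le_exp, mul_pow, div_pow, Real.sq_sqrt (Nat.cast_nonneg n)]
    rcases Nat.eq_zero_or_pos n with rfl | hn
    · simp; positivity
    · have : (n : ℝ) ≠ 0 := by positivity
      field_simp
      exact le_rfl
  have hi : β ^ 2 / 2 < 1 / 2 := by nlinarith
  refine (integral_mono (integrable_finsetSum _ fun s _ => (integral_exp_mul _).1)
    ((Super.integrable_exp_sq hi).const_mul _) h2).trans_eq ?_
  rw [integral_const_mul, Super.integral_exp_sq hi, mul_div_cancel₀ _ two_ne_zero]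

lemma integrable_Z_sq (β : ℝ) : Integrable (fun g => Z n β g ^ 2) (law n) := by
  simp only [Z, sq, sum_mul_sum, exp_energy_eq, ← Real.exp_add, ← sum_add_distrib, ← add_mul]
  exact integrable_finsetSum _ fun σ _ => integrable_finsetSum _ fun τ _ => integrable_exp_lin _

lemma integral_Z_sq_le {β : ℝ} (hn : 0 < n) (hβ : 0 ≤ β) (hβ1 : β < 1) :
    ∫ g, Z n β g ^ 2 ∂law n ≤ (Real.sqrt (1 - β ^ 2))⁻¹ * Real.exp (ann n β) ^ 2 := by
  simp only [Z, sq (∑ σ, Real.exp _), sum_mul_sum, exp_energy_eq, ← Real.exp_add,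
    ← sum_add_distrib, ← add_mul]
  rw [integral_finsetSum _ fun σ _ => integrable_finsetSum _ fun τ _ => integrable_exp_lin _]
  simp only [integral_finsetSum _ fun τ _ => integrable_exp_lin _, integral_exp_lin]
  set c := β / Real.sqrt n with hc
  set E := (Fintype.card (Edge n) : ℝ) with hE
  set K := (Real.sqrt (1 - β ^ 2))⁻¹
  have hn' : (0 : ℝ) < n := by exact_mod_cast hn
  have hc2 : c ^ 2 = β ^ 2 / n := by rw [hc, div_pow, Real.sq_sqrt hn'.le]
  have key : ∀ σ τ : Fin n → Bool,
      Real.exp ((∑ e, (c * bond e σ + c * bond e τ) ^ 2) / 2)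
        ≤ Real.exp (E * c ^ 2) *
          Real.exp (β ^ 2 * mag (fun i => decide (σ i = τ i)) ^ 2 / (2 * n)) := by
    intro σ τ
    have hb : ∀ e : Edge n, bond e σ * bond e τ = bond e fun i => decide (σ i = τ i) := by
      intro e
      have hd : ∀ a b : Bool, spinVal a * spinVal b = spinVal (decide (a = b)) := by
        intro a b; cases a <;> cases b <;> simp [spinVal]
      unfold bond
      rw [mul_mul_mul_comm, hd, hd]
    have h := sum_pairs fun i => decide (σ i = τ i)
    rw [← Real.exp_add, Real.exp_le_exp]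
    have e1 : ∑ e, (c * bond e σ + c * bond e τ) ^ 2
        = 2 * E * c ^ 2 + c ^ 2 * (2 * ∑ e, bond e fun i => decide (σ i = τ i)) := by
      simp only [add_sq, mul_pow, bond_sq, mul_one, sum_add_distrib, sum_const, card_univ,
        nsmul_eq_mul, ← hb, ← hE, mul_sum]
      have : ∀ e : Edge n, 2 * (c * bond e σ) * (c * bond e τ) = c ^ 2 * (2 * (bond e σ * bond e τ)) :=
        fun e => by ring
      simp only [this]
      ring
    rw [e1, h, hc2]
    have : 0 ≤ β ^ 2 / n * n := by positivity
    field_simp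
    nlinarith [sq_nonneg β, mul_nonneg (sq_nonneg β) hn'.le]
  refine (sum_le_sum fun σ _ => sum_le_sum fun τ _ => key σ τ).trans ?_
  have hrow : ∀ σ : Fin n → Bool, ∑ τ : Fin n → Bool, Real.exp (E * c ^ 2) *
      Real.exp (β ^ 2 * mag (fun i => decide (σ i = τ i)) ^ 2 / (2 * n))
      ≤ Real.exp (E * c ^ 2) * (2 ^ n * K) := by
    intro σ
    rw [← mul_sum]
    refine mul_le_mul_of_nonneg_left (le_of_eq_of_le ?_ (sum_exp_mag_sq hβ hβ1)) (Real.exp_pos _).le
    have hinv : Function.Involutive fun (τ : Fin n → Bool) i => decide (σ i = τ i) := by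
      intro τ; funext i; cases h1 : σ i <;> cases h2 : τ i <;> simp [h1, h2]
    exact Equiv.sum_comp hinv.toPerm fun s : Fin n → Bool => Real.exp (β ^ 2 * mag s ^ 2 / (2 * n))
  refine (sum_le_sum fun σ _ => hrow σ).trans_eq ?_
  rw [sum_const, card_univ, nsmul_eq_mul, card_conf, exp_ann, mul_pow, ← hE, ← hc,
    show Real.exp (E * c ^ 2 / 2) ^ 2 = Real.exp (E * c ^ 2) by
      rw [← Real.exp_nat_mul]; congr 1; push_cast; ring]
  ring

/-- The partition function is at least half its mean with a probability bounded below. -/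
lemma Z_large {β : ℝ} (hn : 0 < n) (hβ : 0 ≤ β) (hβ1 : β < 1) :
    Real.sqrt (1 - β ^ 2) / 4 ≤ (law n).real {g | Real.exp (ann n β) / 2 ≤ Z n β g} := by
  set M := Real.exp (ann n β)
  set w := Real.sqrt (1 - β ^ 2)
  have hM : 0 < M := Real.exp_pos _
  have hw : 0 < w := Real.sqrt_pos.2 (by nlinarith)
  set S := {g | M / 2 ≤ Z n β g}
  have hS : MeasurableSet S := measurableSet_le measurable_const (measurable_Z n β)
  have hpt : ∀ g, Z n β g ≤ M / 2 + w / (4 * M) * Z n β g ^ 2 + M / w * S.indicator 1 g := by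
    intro g
    have hz := (Z_pos β g).le
    by_cases h : g ∈ S
    · rw [Set.indicator_of_mem h]
      simp only [Pi.one_apply, mul_one]
      have h2 : Z n β g ≤ w / (4 * M) * Z n β g ^ 2 + M / w := by
        rw [div_mul_eq_mul_div, div_add_div _ _ (by positivity) hw.ne', le_div_iff₀ (by positivity)]
        nlinarith [sq_nonneg (w * Z n β g - 2 * M)]
      linarith
    · rw [Set.indicator_of_notMem h, mul_zero, add_zero]
      have h' : Z n β g < M / 2 := not_le.1 h
      have : 0 ≤ w / (4 * M) * Z n β g ^ 2 := by positivity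
      linarith
  have h1 : Integrable (fun g => S.indicator (1 : (Edge n → ℝ) → ℝ) g) (law n) :=
    (integrable_const 1).indicator hS
  have h : ∫ g, Z n β g ∂law n
      ≤ ∫ g, (M / 2 + w / (4 * M) * Z n β g ^ 2) + M / w * S.indicator 1 g ∂law n :=
    integral_mono (integrable_Z β)
    (((integrable_const (M / 2)).add ((integrable_Z_sq β).const_mul (w / (4 * M)))).add
      (h1.const_mul (M / w))) hpt
  have h0 : Integrable (fun g => M / 2 + w / (4 * M) * Z n β g ^ 2) (law n) :=
    (integrable_const _).add ((integrable_Z_sq β).const_mul _)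
  rw [integral_Z, integral_add h0 (h1.const_mul _), integral_add (integrable_const _) ((integrable_Z_sq β).const_mul _),
    integral_const, integral_const_mul, integral_const_mul, integral_indicator_one hS,
    probReal_univ, one_smul] at h
  have h2 := mul_le_mul_of_nonneg_left (integral_Z_sq_le hn hβ hβ1)
    (by positivity : (0 : ℝ) ≤ w / (4 * M))
  have h3 : w / (4 * M) * (w⁻¹ * M ^ 2) = M / 4 := by field_simp
  rw [h3] at h2
  have h4 : M / 4 ≤ M / w * (law n).real S := by linarith
  rw [div_mul_eq_mul_div, le_div_iff₀ hw] at h4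
  nlinarith

/-- A linear bound on the variance. -/
lemma variance_le_linear (hn : 2 ≤ n) {β : ℝ} (hβ : 0 ≤ β) (hβ1 : β ≤ 1) :
    variance (freeEnergy n β) (law n) ≤ n := by
  classical
  have hn0 : (0 : ℝ) < n := by exact_mod_cast (by omega : 0 < n)
  refine (Super.variance_le_pairs hn hβ 0).trans ?_
  have h1 : ∀ e, ∑ G ∈ Super.multi n 0, Super.coef (Super.obs β Super.mon2 (Super.ends e)) G ^ 2
      ≤ 1 := fun e => by
    have hb : ∀ g, |Super.obs β Super.mon2 (Super.ends e) g| ≤ 1 := Super.abs_obs_le_one β _ _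
    have hL : MemLp (Super.obs β Super.mon2 (Super.ends e)) 2 (law n) :=
      MemLp.of_bound (Super.measurable_obs β _ _).aestronglyMeasurable 1
        (ae_of_all _ fun g => by rw [Real.norm_eq_abs]; exact hb g)
    refine (Super.sum_coef_sq_le hL _).trans ((integral_mono hL.integrable_sq
      (integrable_const (1 : ℝ)) fun g => ?_).trans_eq (by simp))
    rw [← sq_abs]; exact pow_le_one₀ (abs_nonneg _) (hb g)
  have h2 := mul_le_mul_of_nonneg_left (sum_le_sum fun e (_ : e ∈ univ) => h1 e)
    (by positivity : (0 : ℝ) ≤ β ^ 2 / n)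
  rw [sum_const, card_univ, nsmul_eq_mul, mul_one] at h2
  have h3 : β ^ 2 / n * Fintype.card (Edge n) ≤ β ^ 2 * n / 2 := by
    refine (mul_le_mul_of_nonneg_left (Super.card_edge_two n) (by positivity)).trans_eq ?_
    field_simp
  have h4 : β ^ 2 * n ≤ n := mul_le_of_le_one_left hn0.le (pow_le_one₀ hβ hβ1)
  simp only [Nat.cast_zero, zero_add, mul_one]
  linarith

/-- Below the critical point the free energy is rarely much below the annealed one. -/
theorem free_lower {β : ℝ} (hn : 2 ≤ n) (hβ : 0 ≤ β) (hβ1 : β < 1) {l : ℝ} (hl : 2 ≤ l * n)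
    (hK : 16 < l ^ 2 * n * Real.sqrt (1 - β ^ 2)) :
    (law n).real {g | freeEnergy n β g < ann n β - 3 * (l * n)} ≤ 1 / (4 * (l ^ 2 * n)) := by
  have hn0 : (0 : ℝ) < n := by exact_mod_cast (by omega : 0 < n)
  have hl0 : 0 < l := pos_of_mul_pos_left (by linarith : 0 < l * n) hn0.le
  have hL : MemLp (freeEnergy n β) 2 (law n) :=
    memLp_of_abs_le (measurable_freeEnergy n β) (by positivity) hβ (freeEnergy_abs hn hβ)
  set m := ∫ g, freeEnergy n β g ∂law n
  have cheb : ∀ c : ℝ, 0 < c →
      (law n).real {g | c ≤ |freeEnergy n β g - m|} ≤ n / c ^ 2 := by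
    intro c hc
    have h := meas_ge_le_variance_div_sq hL hc
    refine (ENNReal.toReal_mono ENNReal.ofReal_ne_top h).trans ?_
    rw [ENNReal.toReal_ofReal (div_nonneg (variance_nonneg _ _) (sq_nonneg c))]
    exact div_le_div_of_nonneg_right (variance_le_linear hn hβ hβ1.le) (sq_nonneg c)
  have hln : Real.log 2 ≤ 1 := by have := Real.log_two_lt_d9; linarith
  have hm : ann n β - l * n ≤ m := by
    by_contra hm
    rw [not_le] at hm
    have hsub : {g | Real.exp (ann n β) / 2 ≤ Z n β g}
        ⊆ {g | l * n / 2 ≤ |freeEnergy n β g - m|} := by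
      intro g hg
      have h1 : ann n β - Real.log 2 ≤ freeEnergy n β g := by
        rw [← Real.log_exp (ann n β), ← Real.log_div (Real.exp_pos _).ne' two_ne_zero]
        exact Real.log_le_log (by positivity) hg
      exact le_trans (show l * n / 2 ≤ freeEnergy n β g - m by linarith) (le_abs_self _)
    have h := (Z_large (by omega) hβ hβ1).trans
      ((measureReal_mono hsub).trans (cheb _ (by positivity)))
    rw [le_div_iff₀ (by positivity)] at h
    nlinarith
  refine (measureReal_mono (show {g | freeEnergy n β g < ann n β - 3 * (l * n)}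
    ⊆ {g | 2 * (l * n) ≤ |freeEnergy n β g - m|} from fun g hg => ?_)).trans
      ((cheb _ (by positivity)).trans_eq (by field_simp; ring))
  have h1 : freeEnergy n β g < ann n β - 3 * (l * n) := hg
  exact le_trans (show 2 * (l * n) ≤ -(freeEnergy n β g - m) by linarith) (neg_le_abs _)

/-- With high probability the small observables carry an exponentially small Gibbs mass. -/
theorem mass_small {j : ℕ} {a : ℝ} (ha : 1 / 2 ≤ a) (ha1 : a < 1) (hn : 2 * (j + 1) ≤ n)
    (hl : 2 ≤ cκ j / 12 * n) (hK : 16 < (cκ j / 12) ^ 2 * n * Real.sqrt (1 - a ^ 2)) :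
    (law n).real {g | Real.exp (-(cκ j / 4 * n)) <
        ∑ σ, if Qv n j σ g < cq n j a then gibbs a g σ else 0}
      ≤ 1 / (4 * ((cκ j / 12) ^ 2 * n)) + 2 * j * Real.exp (-(cκ j / 2 * n)) := by
  set l := cκ j / 12
  set κ := cκ j
  set u := Real.exp (ann n a - κ / 2 * n)
  have h2 : 2 ≤ n := by omega
  refine (measureReal_mono (show _ ⊆ {g | freeEnergy n a g < ann n a - 3 * (l * n)} ∪
    {g | u ≤ ZA n j a (cq n j a) g} from fun g hg => ?_)).trans ((measureReal_union_le _ _).trans
      (add_le_add (free_lower h2 (by linarith) ha1 hl hK) ?_))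
  · by_contra hcon
    simp only [Set.mem_union, Set.mem_ofPred_eq, not_or, not_lt, not_le] at hcon hg
    have e : ∀ σ, (if Qv n j σ g < cq n j a then gibbs a g σ else 0)
        = (if Qv n j σ g < cq n j a then Real.exp (a * energy g σ) else 0) / Z n a g := fun σ => by
      split_ifs
      · rfl
      · rw [zero_div]
    simp only [e, ← sum_div] at hg
    rw [← ZA, lt_div_iff₀ (Z_pos a g)] at hg
    have hZ : Real.exp (ann n a - 3 * (l * n)) ≤ Z n a g := by
      rw [← Real.exp_log (Z_pos a g)]
      exact Real.exp_le_exp.2 hcon.1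
    have h3 := mul_le_mul_of_nonneg_left hZ (Real.exp_pos (-(κ / 4 * n))).le
    rw [← Real.exp_add, show -(κ / 4 * n) + (ann n a - 3 * (l * n)) = ann n a - κ / 2 * n by
      simp only [l]; ring] at h3
    linarith
  · have hu : 0 < u := Real.exp_pos _
    have h := (mul_meas_ge_le_integral_of_nonneg (ae_of_all _ (ZA_nonneg j a (cq n j a)))
      (integrable_ZA j a _) u).trans (integral_ZA_le ha ha1.le hn)
    rw [← le_div_iff₀' hu] at h
    refine h.trans_eq ?_
    rw [mul_comm (Real.exp (ann n a)), mul_div_assoc, ← Real.exp_sub, mul_assoc, ← Real.exp_add]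
    congr 2
    ring

end

end Vale.Agent.P146.Crit
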