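import Vale.Agent.P146.Crit.Partition
import Mathlib.Analysis.SpecificLimits.Normed

/-!
# P146, criticality: the observable under the Gibbs measure near the critical point

A perturbation of the Hamiltonian by the clipped observable lowers the free energy below the
critical point.  This persists at nearby inverse temperatures, so the Gibbs average of the
observable is of linear size there.
-/

namespace Vale.Agent.P146.Crit

open MeasureTheory ProbabilityTheory Finset Filter
open Vale.Agent.P146.Super (law bond gibbs)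
open Vale.Agent.P157 (gaussVec)

noncomputable section

variable {n r : ℕ}

/-- A lower bound on the threshold, divided by `n`. -/
def cδ (j : ℕ) : ℝ := cρ j ^ j / (4 * ((j : ℝ) + 1))

/-- The strength of the perturbation. -/
def cε (j : ℕ) : ℝ := cκ j / (8 * cT j)

/-- The allowed distance of the inverse temperatures. -/
def cη (j : ℕ) : ℝ := cε j * cδ j / 16

lemma cδ_pos (j : ℕ) : 0 < cδ j := by have := cρ_pos j; unfold cδ; positivity

lemma cε_pos (j : ℕ) : 0 < cε j := by
  have := cκ_pos j
  have := one_le_cT j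
  unfold cε
  positivity

lemma cη_pos (j : ℕ) : 0 < cη j := by have := cδ_pos j; have := cε_pos j; unfold cη; positivity

lemma cδ_le_cq {n j : ℕ} {a : ℝ} (ha : 1 / 2 ≤ a) (hn : 2 * (j + 1) ≤ n) :
    cδ j * n ≤ cq n j a := by
  obtain ⟨h1, h2⟩ := blk_ge hn
  have h3 : cρ j ^ j ≤ (a * blk n j / n) ^ j := pow_le_pow_left₀ (cρ_pos j).le (cρ_le ha hn) j
  have h4 : (n : ℝ) / (2 * ((j : ℝ) + 1)) ≤ blk n j := by
    rw [div_le_iff₀ (by positivity)]; linarith
  calc cδ j * n = cρ j ^ j * ((n : ℝ) / (2 * ((j : ℝ) + 1))) / 2 := by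
        rw [cδ]; field_simp; ring
    _ ≤ cq n j a := by
      unfold cq
      gcongr


/-- The total of the product as a sum over paths. -/
lemma run_sum (n : ℕ) : ∀ (k : ℕ) (B : Mats r k) (φ : Fin r → ℝ),
    ∑ u, φ u * run n k B (fun _ => 1) u
      = (∑ v : Fin (k + 1) → Fin r, φ (v (Fin.last k)) * ∏ i : Fin k, B i (v i.succ) (v i.castSucc))
        / Real.sqrt n ^ k
  | 0, B, φ => by
      rw [← (Equiv.funUnique (Fin 1) (Fin r)).symm.sum_comp]
      simp [run]
  | k + 1, B, φ => by
      simp only [run, step, mul_div_assoc', ← sum_div, mul_sum]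
      rw [sum_comm]
      have h : ∀ l, ∑ u, φ u * (B (Fin.last k) u l * run n k (fun i => B i.castSucc) (fun _ => 1) l)
          = (∑ u, φ u * B (Fin.last k) u l) * run n k (fun i => B i.castSucc) (fun _ => 1) l :=
        fun l => by rw [sum_mul]; exact sum_congr rfl fun u _ => by ring
      simp only [h]
      rw [run_sum n k _ fun l => ∑ u, φ u * B (Fin.last k) u l, div_div, ← pow_succ]
      congr 1
      rw [← (Fin.snocEquiv fun _ : Fin (k + 1 + 1) => Fin r).sum_comp, Fintype.sum_prod_type,
        sum_comm]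
      refine sum_congr rfl fun v _ => ?_
      rw [sum_mul]
      refine sum_congr rfl fun u _ => ?_
      simp only [Fin.snocEquiv, Equiv.coe_fn_mk, Fin.prod_univ_castSucc, Fin.snoc_last,
        Fin.succ_castSucc, Fin.snoc_castSucc, Fin.succ_last]
      ring

/-- The edges of a path through the classes. -/
def cedge (n j : ℕ) (v : Fin (j + 1) → Fin (blk n j)) (i : Fin j) : Edge n :=
  idx n j i (v i.succ) (v i.castSucc)

lemma cedge_injective (n j : ℕ) (v : Fin (j + 1) → Fin (blk n j)) :
    Function.Injective (cedge n j v) := by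
  intro i i' h
  have h1 := congrArg (fun e : Edge n => e.1.1) h
  exact Fin.castSucc_inj.1 (node_inj h1).1

lemma Qv_eq (n j : ℕ) (σ : Fin n → Bool) (g : Edge n → ℝ) :
    Qv n j σ g = (∑ v, (∏ i, g (cedge n j v i)) * ∏ i, bond (cedge n j v i) σ)
      / Real.sqrt n ^ j := by
  have h := run_sum n j (blocks n j (sig σ g)) fun _ => 1
  simp only [one_mul] at h
  rw [Qv, total, h]
  congr 1
  refine sum_congr rfl fun v _ => ?_
  rw [← prod_mul_distrib]
  rfl

/-- A bound on the observable of every configuration. -/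
def Dv (n j : ℕ) (g : Edge n → ℝ) : ℝ := ∑ v, |∏ i, g (cedge n j v i)|

lemma measurable_Dv (n j : ℕ) : Measurable (Dv n j) := by unfold Dv; fun_prop

lemma abs_bond' (e : Edge n) (σ : Fin n → Bool) : |bond e σ| = 1 := by
  rcases bond_eq e σ with h | h <;> simp [h]

lemma abs_Qv_le {n j : ℕ} (hn : 1 ≤ n) (σ : Fin n → Bool) (g : Edge n → ℝ) :
    |Qv n j σ g| ≤ Dv n j g := by
  have h1 : (1 : ℝ) ≤ Real.sqrt n ^ j :=
    one_le_pow₀ (Real.one_le_sqrt.2 (by exact_mod_cast hn))
  rw [Qv_eq, abs_div, abs_of_nonneg (by linarith : (0 : ℝ) ≤ Real.sqrt n ^ j)]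
  refine (div_le_self (abs_nonneg _) h1).trans ((abs_sum_le_sum_abs _ _).trans_eq ?_)
  refine sum_congr rfl fun v _ => ?_
  rw [abs_mul, abs_prod univ fun i => bond (cedge n j v i) σ]
  simp [abs_bond']

lemma path_sq (n j : ℕ) (v : Fin (j + 1) → Fin (blk n j)) :
    Integrable (fun g : Edge n → ℝ => (∏ i, g (cedge n j v i)) ^ 2) (law n) ∧
      ∫ g, (∏ i, g (cedge n j v i)) ^ 2 ∂law n = 1 := by
  have hmp : MeasurePreserving (fun (g : Edge n → ℝ) i => g (cedge n j v i)) (law n)
      (gaussVec (Fin j)) := measurePreserving_comp _ (cedge_injective n j v)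
  have h2 : ∫ z, z ^ 2 ∂gaussianReal 0 1 = 1 := by
    have h := variance_fun_id_gaussianReal (μ := 0) (v := 1)
    rw [variance_of_integral_eq_zero aemeasurable_id' (by simp)] at h
    simpa using h
  have hi : Integrable (fun y : Fin j → ℝ => ∏ i, y i ^ 2) (gaussVec (Fin j)) :=
    Integrable.fintype_prod (f := fun _ z => z ^ 2) fun _ =>
      (memLp_id_gaussianReal (μ := 0) (v := 1) 2).integrable_sq
  have hv : ∫ y : Fin j → ℝ, ∏ i, y i ^ 2 ∂gaussVec (Fin j) = 1 := by
    rw [gaussVec, integral_fintype_prod_eq_prod (f := fun (_ : Fin j) (z : ℝ) => z ^ 2)]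
    simp [h2]
  simp only [← prod_pow]
  refine ⟨hmp.integrable_comp_of_integrable hi, ?_⟩
  rw [← hv]
  conv_rhs => rw [← hmp.map_eq]
  rw [integral_map hmp.measurable.aemeasurable
    (Finset.measurable_prod _ fun i _ => (measurable_pi_apply i).pow_const 2).aestronglyMeasurable]

lemma card_paths_le (n j : ℕ) :
    (Fintype.card (Fin (j + 1) → Fin (blk n j)) : ℝ) ≤ (n : ℝ) ^ (j + 1) := by
  simp only [Fintype.card_fun, Fintype.card_fin, Nat.cast_pow]
  exact pow_le_pow_left₀ (Nat.cast_nonneg _) (by exact_mod_cast blk_le n j) _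

lemma Dv_sq (n j : ℕ) : Integrable (fun g => Dv n j g ^ 2) (law n) ∧
    ∫ g, Dv n j g ^ 2 ∂law n ≤ ((n : ℝ) ^ (j + 1)) ^ 2 := by
  set N : ℝ := ((Fintype.card (Fin (j + 1) → Fin (blk n j)) : ℕ) : ℝ)
  have hb : ∀ g, Dv n j g ^ 2 ≤ N * ∑ v, (∏ i, g (cedge n j v i)) ^ 2 := fun g => by
    have h := sq_sum_le_card_mul_sum_sq (s := (univ : Finset (Fin (j + 1) → Fin (blk n j))))
      (f := fun v => |∏ i, g (cedge n j v i)|)
    simp only [sq_abs, card_univ] at h
    exact h
  have hi := (integrable_finsetSum univ fun v _ => (path_sq n j v).1).const_mul N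
  have hD : Integrable (fun g => Dv n j g ^ 2) (law n) :=
    hi.mono' ((measurable_Dv n j).pow_const 2).aestronglyMeasurable (ae_of_all _ fun g => by
      rw [Real.norm_eq_abs, abs_of_nonneg (sq_nonneg _)]; exact hb g)
  refine ⟨hD, (integral_mono hD hi hb).trans ?_⟩
  rw [integral_const_mul, integral_finsetSum _ fun v _ => (path_sq n j v).1]
  simp only [(path_sq n j _).2, sum_const, card_univ, nsmul_eq_mul, mul_one]
  rw [sq ((n : ℝ) ^ (j + 1))]
  exact mul_le_mul (card_paths_le n j) (card_paths_le n j) (Nat.cast_nonneg _) (by positivity)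

/-- The Gibbs average of the observable. -/
def avQ (n j : ℕ) (β : ℝ) (g : Edge n → ℝ) : ℝ := ∑ σ, gibbs β g σ * Qv n j σ g

lemma measurable_gibbs (β : ℝ) (σ : Fin n → Bool) :
    Measurable fun g : Edge n → ℝ => gibbs β g σ := by
  unfold gibbs energy; fun_prop

lemma integrable_avQ {n j : ℕ} (hn : 1 ≤ n) (β : ℝ) : Integrable (avQ n j β) (law n) := by
  refine ((integrable_const (1 : ℝ)).add (Dv_sq n j).1).mono'
    (Finset.measurable_sum _ fun σ _ => (measurable_gibbs β σ).mul
      (measurable_Qv n j σ)).aestronglyMeasurable (ae_of_all _ fun g => ?_)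
  rw [Real.norm_eq_abs, Pi.add_apply]
  refine (abs_sum_le_sum_abs _ _).trans ((sum_le_sum fun σ _ => ?_).trans
    (le_of_eq_of_le (show ∑ σ, gibbs β g σ * Dv n j g = Dv n j g by
      rw [← sum_mul, Super.sum_gibbs, one_mul]) (by nlinarith [sq_nonneg (Dv n j g - 1)])))
  rw [abs_mul, abs_of_nonneg (Super.gibbs_nonneg β g σ)]
  exact mul_le_mul_of_nonneg_left (abs_Qv_le hn σ g) (Super.gibbs_nonneg β g σ)

/-- The clipped perturbation. -/
def pert (n j : ℕ) (σ : Fin n → Bool) (g : Edge n → ℝ) : ℝ :=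
  -cε j * max (-(cT j * n)) (min (cT j * n) (Qv n j σ g))

lemma measurable_pert (n j : ℕ) (σ : Fin n → Bool) : Measurable (pert n j σ) :=
  (measurable_const.max (measurable_const.min (measurable_Qv n j σ))).const_mul _

lemma abs_pert_le (n j : ℕ) (σ : Fin n → Bool) (g : Edge n → ℝ) :
    |pert n j σ g| ≤ cκ j / 8 * n := by
  have hT : (0 : ℝ) ≤ cT j * n := mul_nonneg (by linarith [one_le_cT j]) (Nat.cast_nonneg n)
  rw [pert, abs_mul, abs_neg, abs_of_pos (cε_pos j)]
  refine (mul_le_mul_of_nonneg_left (abs_le.2 ⟨le_max_left _ _,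
    max_le (by linarith) (min_le_left _ _)⟩) (cε_pos j).le).trans_eq ?_
  have := one_le_cT j
  unfold cε
  field_simp

/-- The gain in free energy from the perturbation. -/
def gain (n j : ℕ) (β : ℝ) (g : Edge n → ℝ) : ℝ :=
  Real.log (∑ σ, gibbs β g σ * Real.exp (pert n j σ g))

lemma gain_sum_pos (j : ℕ) (β : ℝ) (g : Edge n → ℝ) :
    0 < ∑ σ, gibbs β g σ * Real.exp (pert n j σ g) :=
  sum_pos (fun σ _ => mul_pos (div_pos (Real.exp_pos _) (sum_exp_pos β g)) (Real.exp_pos _))
    univ_nonempty

lemma abs_gain_le (n j : ℕ) (β : ℝ) (g : Edge n → ℝ) : |gain n j β g| ≤ cκ j / 8 * n := by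
  have h := fun σ => abs_le.1 (abs_pert_le n j σ g)
  rw [abs_le, gain, Real.le_log_iff_exp_le (gain_sum_pos j β g),
    Real.log_le_iff_le_exp (gain_sum_pos j β g)]
  refine ⟨?_, ?_⟩
  · calc Real.exp (-(cκ j / 8 * n)) = ∑ σ, gibbs β g σ * Real.exp (-(cκ j / 8 * n)) := by
          rw [← sum_mul, Super.sum_gibbs, one_mul]
      _ ≤ _ := sum_le_sum fun σ _ => mul_le_mul_of_nonneg_left
          (Real.exp_le_exp.2 (h σ).1) (Super.gibbs_nonneg β g σ)
  · calc ∑ σ, gibbs β g σ * Real.exp (pert n j σ g)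
        ≤ ∑ σ, gibbs β g σ * Real.exp (cκ j / 8 * n) := sum_le_sum fun σ _ =>
          mul_le_mul_of_nonneg_left (Real.exp_le_exp.2 (h σ).2) (Super.gibbs_nonneg β g σ)
      _ = _ := by rw [← sum_mul, Super.sum_gibbs, one_mul]

lemma measurable_gain (n j : ℕ) (β : ℝ) : Measurable (gain n j β) :=
  Real.measurable_log.comp (Finset.measurable_sum _ fun σ _ =>
    (measurable_gibbs β σ).mul (Real.measurable_exp.comp (measurable_pert n j σ)))

lemma integrable_gain (n j : ℕ) (β : ℝ) : Integrable (gain n j β) (law n) :=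
  (integrable_const (cκ j / 8 * (n : ℝ))).mono' (measurable_gain n j β).aestronglyMeasurable
    (ae_of_all _ fun g => abs_gain_le n j β g)

/-- An upper bound on all energies in absolute value. -/
def amp (n : ℕ) (g : Edge n → ℝ) : ℝ :=
  Real.log (∑ σ : Fin n → Bool, (Real.exp (energy g σ) + Real.exp (-energy g σ)))

lemma amp_sum_ge (g : Edge n → ℝ) (σ : Fin n → Bool) :
    Real.exp |energy g σ| ≤ ∑ τ : Fin n → Bool, (Real.exp (energy g τ) + Real.exp (-energy g τ)) :=
  le_trans (by
      rcases abs_choice (energy g σ) with h | h <;> rw [h] <;>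
        linarith [Real.exp_pos (energy g σ), Real.exp_pos (-energy g σ)])
    (single_le_sum (f := fun τ => Real.exp (energy g τ) + Real.exp (-energy g τ))
      (fun τ _ => by positivity) (mem_univ σ))

lemma abs_energy_le_amp (g : Edge n → ℝ) (σ : Fin n → Bool) : |energy g σ| ≤ amp n g := by
  rw [← Real.log_exp |energy g σ|]
  exact Real.log_le_log (Real.exp_pos _) (amp_sum_ge g σ)

lemma amp_bound (hn : 1 ≤ n) : Integrable (amp n) (law n) ∧ ∫ g, amp n g ∂law n ≤ 2 * n := by
  have hX : ∀ g : Edge n → ℝ,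
      ∑ σ : Fin n → Bool, (Real.exp (energy g σ) + Real.exp (-energy g σ))
        = Z n 1 g + Z n (-1) g := fun g => by simp [Z, sum_add_distrib]
  have h0 : ∀ g, 0 ≤ amp n g := fun g =>
    le_trans (abs_nonneg _) (abs_energy_le_amp g fun _ => true)
  set M : ℝ := 2 * Real.exp (ann n 1)
  have hM : 0 < M := by positivity
  have hann : ann n (-1) = ann n 1 := by simp only [ann, neg_div, neg_sq]
  have hub : ∀ g, amp n g ≤ Real.log M + (Z n 1 g + Z n (-1) g) / M - 1 := by
    intro g
    have hp := add_pos (Z_pos 1 g) (Z_pos (-1) g)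
    rw [amp, hX]
    have := Real.log_le_sub_one_of_pos (div_pos hp hM)
    rw [Real.log_div hp.ne' hM.ne'] at this
    linarith
  have hZ : Integrable (fun g => Z n 1 g + Z n (-1) g) (law n) :=
    (integrable_Z 1).add (integrable_Z (-1))
  have hb : Integrable (fun g => Real.log M + (Z n 1 g + Z n (-1) g) / M - 1) (law n) :=
    ((integrable_const (Real.log M)).add (hZ.div_const M)).sub (integrable_const 1)
  have hm : Measurable (amp n) := by unfold amp energy; fun_prop
  have hi : Integrable (amp n) (law n) :=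
    hb.mono' hm.aestronglyMeasurable (ae_of_all _ fun g => by
      rw [Real.norm_eq_abs, abs_of_nonneg (h0 g)]; exact hub g)
  refine ⟨hi, (integral_mono hi hb hub).trans ?_⟩
  have h0' : Integrable (fun g => Real.log M + (Z n 1 g + Z n (-1) g) / M) (law n) :=
    (integrable_const _).add (hZ.div_const M)
  rw [integral_sub h0' (integrable_const _),
    integral_add (integrable_const _) (hZ.div_const M), integral_div,
    integral_add (integrable_Z 1) (integrable_Z (-1)), integral_Z, integral_Z, hann]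
  have hdiv : (Real.exp (ann n 1) + Real.exp (ann n 1)) / M = 1 := by
    rw [← two_mul]; exact div_self hM.ne'
  simp only [integral_const, probReal_univ, one_smul, hdiv]
  rw [Real.log_mul two_ne_zero (Real.exp_pos _).ne', Real.log_exp]
  have hl : Real.log 2 ≤ 0.7 := by have := Real.log_two_lt_d9; norm_num; linarith
  have hl0 : 0 ≤ Real.log 2 := Real.log_nonneg one_le_two
  have hn' : (1 : ℝ) ≤ n := by exact_mod_cast hn
  have hc : (Fintype.card (Edge n) : ℝ) * (1 / Real.sqrt n) ^ 2 / 2 ≤ n / 4 := by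
    rw [div_pow, one_pow, Real.sq_sqrt (by linarith)]
    have := mul_le_mul_of_nonneg_right (Super.card_edge_two n) (by positivity : (0 : ℝ) ≤ 1 / n)
    have h2 : (n : ℝ) ^ 2 / 2 * (1 / n) = n / 2 := by field_simp
    linarith
  unfold ann
  nlinarith

lemma log_sum_shift (g : Edge n → ℝ) (W : (Fin n → Bool) → ℝ) (b b' : ℝ) :
    Real.log (∑ σ, Real.exp (b' * energy g σ + W σ))
      ≤ Real.log (∑ σ, Real.exp (b * energy g σ + W σ)) + |b' - b| * amp n g := by
  have hp : ∀ c : ℝ, 0 < ∑ σ, Real.exp (c * energy g σ + W σ) := fun c =>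
    sum_pos (fun σ _ => Real.exp_pos _) univ_nonempty
  rw [← Real.log_exp (|b' - b| * amp n g), ← Real.log_mul (hp b).ne' (Real.exp_pos _).ne']
  refine Real.log_le_log (hp b') ?_
  rw [sum_mul]
  refine sum_le_sum fun σ _ => ?_
  rw [← Real.exp_add, Real.exp_le_exp]
  have h1 : (b' - b) * energy g σ ≤ |b' - b| * amp n g :=
    (le_abs_self _).trans (by
      rw [abs_mul]; exact mul_le_mul_of_nonneg_left (abs_energy_le_amp g σ) (abs_nonneg _))
  linarith

lemma gain_shift (j : ℕ) (β a : ℝ) (g : Edge n → ℝ) :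
    gain n j β g ≤ gain n j a g + 2 * (|β - a| * amp n g) := by
  have e : ∀ c : ℝ, gain n j c g =
      Real.log (∑ σ, Real.exp (c * energy g σ + pert n j σ g)) - Real.log (Z n c g) := by
    intro c
    rw [gain, ← Real.log_div (sum_pos (fun σ _ => Real.exp_pos _) univ_nonempty).ne' (Z_pos c g).ne',
      sum_div]
    congr 1
    refine sum_congr rfl fun σ _ => ?_
    rw [gibbs, Real.exp_add, ← Z, div_mul_eq_mul_div]
  rw [e, e]
  have h1 := log_sum_shift g (fun σ => pert n j σ g) a β
  have h2 := log_sum_shift g (fun _ => 0) β a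
  simp only [add_zero] at h2
  rw [abs_sub_comm a β] at h2
  unfold Z
  linarith

lemma gain_jensen (n j : ℕ) (β : ℝ) (g : Edge n → ℝ) :
    ∑ σ, gibbs β g σ * pert n j σ g ≤ gain n j β g := by
  set m := ∑ σ, gibbs β g σ * pert n j σ g with hm
  rw [gain, ← Real.log_exp m]
  refine Real.log_le_log (Real.exp_pos _) ?_
  have h : ∀ σ, gibbs β g σ * (Real.exp m * (1 + (pert n j σ g - m)))
      ≤ gibbs β g σ * Real.exp (pert n j σ g) := fun σ => by
    refine mul_le_mul_of_nonneg_left ?_ (Super.gibbs_nonneg β g σ)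
    calc Real.exp m * (1 + (pert n j σ g - m))
        ≤ Real.exp m * Real.exp (pert n j σ g - m) := by
          gcongr; linarith [Real.add_one_le_exp (pert n j σ g - m)]
      _ = _ := by rw [← Real.exp_add, add_sub_cancel]
  refine le_of_eq_of_le ?_ (sum_le_sum fun σ _ => h σ)
  have e : ∀ σ, gibbs β g σ * (Real.exp m * (1 + (pert n j σ g - m)))
      = Real.exp m * (1 - m) * gibbs β g σ + Real.exp m * (gibbs β g σ * pert n j σ g) := fun σ => by
    ring
  simp only [e, sum_add_distrib, ← mul_sum, Super.sum_gibbs, mul_one, ← hm]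
  ring

/-- Below the critical point the perturbation lowers the free energy. -/
lemma integral_gain_le {j : ℕ} {a : ℝ} (ha : 1 / 2 ≤ a) (ha1 : a < 1) (hn : 2 * (j + 1) ≤ n)
    (hl : 2 ≤ cκ j / 12 * n) (hK : 16 < (cκ j / 12) ^ 2 * n * Real.sqrt (1 - a ^ 2)) :
    ∫ g, gain n j a g ∂law n ≤ Real.log 2 - cε j * cq n j a + cκ j / 4 * n *
      (1 / (4 * ((cκ j / 12) ^ 2 * n)) + 2 * j * Real.exp (-(cκ j / 2 * n))) := by
  classical
  set q := cq n j a
  set ε := cε j
  set S := {g : Edge n → ℝ | Real.exp (-(cκ j / 4 * n)) <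
    ∑ σ, if Qv n j σ g < q then gibbs a g σ else 0}
  have hS : MeasurableSet S := measurableSet_lt measurable_const
    (Finset.measurable_sum _ fun σ _ => Measurable.ite
      (measurableSet_lt (measurable_Qv n j σ) measurable_const) (measurable_gibbs a σ)
      measurable_const)
  have hn0 : 0 < n := by omega
  have hqT : q ≤ cT j * n := cq_le (by linarith) ha1.le hn0
  have hκ : cκ j / 8 * n = ε * (cT j * n) := by
    have := one_le_cT j
    simp only [ε, cε]; field_simp
  have hεq : ε * q ≤ cκ j / 8 * n := hκ ▸ mul_le_mul_of_nonneg_left hqT (cε_pos j).le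
  have hpt : ∀ g, gain n j a g
      ≤ (Real.log 2 - ε * q) + cκ j / 4 * n * S.indicator 1 g := by
    intro g
    have hl2 : 0 ≤ Real.log 2 := Real.log_nonneg one_le_two
    by_cases h : g ∈ S
    · rw [Set.indicator_of_mem h, Pi.one_apply, mul_one]
      have := (abs_le.1 (abs_gain_le n j a g)).2
      linarith
    · rw [Set.indicator_of_notMem h, mul_zero, add_zero]
      have hX : ∑ σ, (if Qv n j σ g < q then gibbs a g σ else 0)
          ≤ Real.exp (-(cκ j / 4 * n)) := not_lt.1 h
      rw [gain, Real.log_le_iff_le_exp (gain_sum_pos j a g), sub_eq_add_neg, Real.exp_add,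
        Real.exp_log two_pos]
      have hb : ∀ σ, gibbs a g σ * Real.exp (pert n j σ g) ≤ gibbs a g σ * Real.exp (-(ε * q))
          + (if Qv n j σ g < q then gibbs a g σ else 0) * Real.exp (cκ j / 8 * n) := by
        intro σ
        have hg0 := Super.gibbs_nonneg a g σ
        split_ifs with h'
        · exact le_trans (mul_le_mul_of_nonneg_left
            (Real.exp_le_exp.2 (abs_le.1 (abs_pert_le n j σ g)).2) hg0)
            (le_add_of_nonneg_left (by positivity))
        · rw [zero_mul, add_zero]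
          refine mul_le_mul_of_nonneg_left (Real.exp_le_exp.2 ?_) hg0
          rw [pert, neg_mul, neg_le_neg_iff]
          exact mul_le_mul_of_nonneg_left
            (le_max_of_le_right (le_min hqT (not_lt.1 h'))) (cε_pos j).le
      refine (sum_le_sum fun σ _ => hb σ).trans ?_
      rw [sum_add_distrib, ← sum_mul, ← sum_mul, Super.sum_gibbs, one_mul, two_mul]
      refine add_le_add le_rfl ((mul_le_mul_of_nonneg_right hX (Real.exp_pos _).le).trans ?_)
      rw [← Real.exp_add, Real.exp_le_exp]
      linarith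
  have h1 : Integrable (fun g => cκ j / 4 * n * S.indicator (1 : (Edge n → ℝ) → ℝ) g) (law n) :=
    ((integrable_const 1).indicator hS).const_mul _
  refine (integral_mono (integrable_gain n j a) ((integrable_const _).add h1) hpt).trans ?_
  rw [Pi.add_def, integral_add (integrable_const _) h1, integral_const, probReal_univ, one_smul,
    integral_const_mul, integral_indicator_one hS]
  exact add_le_add le_rfl (mul_le_mul_of_nonneg_left (mass_small ha ha1 hn hl hK)
    (by have := cκ_pos j; positivity))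

/-- All observables are of at most linear size, apart from a small probability. -/
lemma avQ_clip {j : ℕ} (β : ℝ) (hn : 2 * (j + 1) ≤ n) :
    -cε j * ∫ g, avQ n j β g ∂law n ≤ ∫ g, gain n j β g ∂law n +
      cε j * ((((n : ℝ) ^ (j + 1)) ^ 2 + 2 * j) * Real.exp (-(1 / 2 * (n : ℝ)))) := by
  classical
  set B := {g : Edge n → ℝ | ∃ σ, cT j * n < |Qv n j σ g|}
  have hBm : MeasurableSet B := by
    have : B = ⋃ σ, {g | cT j * n < |Qv n j σ g|} := by ext g; simp [B]
    rw [this]
    exact MeasurableSet.iUnion fun σ =>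
      measurableSet_lt measurable_const (measurable_Qv n j σ).abs
  have hn1 : 1 ≤ n := by omega
  set M := Real.exp (1 / 2 * (n : ℝ)) with hM
  have hM0 : 0 < M := Real.exp_pos _
  have hε := cε_pos j
  have hpt : ∀ g, -cε j * avQ n j β g ≤ gain n j β g +
      cε j * (Dv n j g ^ 2 / M + M * B.indicator 1 g) := by
    intro g
    have h := gain_jensen n j β g
    have hT : (0 : ℝ) ≤ cT j * n := mul_nonneg (by linarith [one_le_cT j]) (Nat.cast_nonneg n)
    set err := Dv n j g ^ 2 / M + M * B.indicator 1 g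
    have herr : ∀ σ, max (-(cT j * n)) (min (cT j * n) (Qv n j σ g)) - err ≤ Qv n j σ g := by
      intro σ
      by_cases hg : g ∈ B
      · have h1 := abs_Qv_le hn1 σ g (j := j)
        have hD : 0 ≤ Dv n j g := (abs_nonneg _).trans h1
        have e1 : err = Dv n j g ^ 2 / M + M := by simp [err, Set.indicator_of_mem hg]
        have h2 : 2 * Dv n j g ≤ err := by
          rw [e1, div_add' _ _ _ hM0.ne', le_div_iff₀ hM0]
          nlinarith [sq_nonneg (Dv n j g - M)]
        have h3 : max (-(cT j * n)) (min (cT j * n) (Qv n j σ g)) ≤ |Qv n j σ g| :=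
          max_le ((neg_nonpos.2 hT).trans (abs_nonneg _)) ((min_le_right _ _).trans (le_abs_self _))
        linarith [neg_abs_le (Qv n j σ g)]
      · have h1 : |Qv n j σ g| ≤ cT j * n := not_lt.1 fun hc => hg ⟨σ, hc⟩
        rw [min_eq_right (abs_le.1 h1).2, max_eq_right (abs_le.1 h1).1]
        have : 0 ≤ err := by
          have : (0 : ℝ) ≤ B.indicator 1 g := Set.indicator_nonneg (fun _ _ => zero_le_one) g
          positivity
        linarith
    calc -cε j * avQ n j β g
        ≤ ∑ σ, (gibbs β g σ * pert n j σ g + gibbs β g σ * (cε j * err)) := by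
          rw [avQ, mul_sum]
          refine sum_le_sum fun σ _ => ?_
          have := mul_le_mul_of_nonneg_left (herr σ) (mul_nonneg hε.le (Super.gibbs_nonneg β g σ))
          unfold pert
          linarith
      _ = (∑ σ, gibbs β g σ * pert n j σ g) + cε j * err := by
          rw [sum_add_distrib, ← sum_mul _ _ (cε j * err), Super.sum_gibbs, one_mul]
      _ ≤ _ := by linarith
  have h1 : Integrable (fun g => M * B.indicator (1 : (Edge n → ℝ) → ℝ) g) (law n) :=
    ((integrable_const 1).indicator hBm).const_mul _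
  have h2 : Integrable (fun g => Dv n j g ^ 2 / M) (law n) := (Dv_sq n j).1.div_const M
  have h3 : Integrable (fun g => cε j * (Dv n j g ^ 2 / M + M * B.indicator 1 g)) (law n) :=
    (h2.add h1).const_mul _
  rw [← integral_const_mul]
  refine (integral_mono ((integrable_avQ hn1 β).const_mul _)
    ((integrable_gain n j β).add h3) hpt).trans ?_
  rw [Pi.add_def, integral_add (integrable_gain n j β) h3, integral_const_mul,
    integral_add h2 h1, integral_div, integral_const_mul, integral_indicator_one hBm]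
  refine add_le_add le_rfl (mul_le_mul_of_nonneg_left ?_ hε.le)
  have hB : (law n).real B ≤ (2 : ℝ) ^ n * (2 * j * Real.exp (-(2 * (n : ℝ)))) := by
    have hsub : B = ⋃ σ, {g | cT j * n < |Qv n j σ g|} := by ext g; simp [B]
    rw [hsub]
    refine (measureReal_iUnion_fintype_le _).trans ((sum_le_sum fun σ _ => ?_).trans_eq
      (by rw [sum_const, card_univ, nsmul_eq_mul, card_conf]))
    have hmp := (measurePreserving_blocks n j).comp (measurePreserving_sig σ)
    have e : {g | cT j * n < |Qv n j σ g|}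
        = (blocks n j ∘ sig σ) ⁻¹' {B | cT j * n < |total n j B|} := rfl
    rw [e, hmp.measureReal_preimage
      (measurableSet_lt measurable_const (measurable_total n j).abs).nullMeasurableSet]
    exact total_abs_tail hn
  have hexp : M * ((2 : ℝ) ^ n * Real.exp (-(2 * (n : ℝ)))) ≤ Real.exp (-(1 / 2 * (n : ℝ))) := by
    rw [show (2 : ℝ) ^ n = Real.exp (n * Real.log 2) by rw [Real.exp_nat_mul, Real.exp_log two_pos],
      hM, ← Real.exp_add, ← Real.exp_add, Real.exp_le_exp]
    have : Real.log 2 ≤ 1 := by have := Real.log_two_lt_d9; linarith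
    nlinarith [Nat.cast_nonneg (α := ℝ) n]
  rw [add_mul]
  refine add_le_add ?_ ?_
  · rw [Real.exp_neg, ← hM, ← div_eq_mul_inv]
    exact div_le_div_of_nonneg_right (Dv_sq n j).2 hM0.le
  · have h4 := mul_le_mul_of_nonneg_left hB hM0.le
    have h5 := mul_le_mul_of_nonneg_left hexp (by positivity : (0 : ℝ) ≤ 2 * j)
    linarith

/-- **Transfer.**  Near the critical point the Gibbs average of the observable is linear in `n`. -/
theorem avQ_lower (j : ℕ) {a : ℝ} (ha : 1 / 2 ≤ a) (ha1 : a < 1) :
    ∀ᶠ n : ℕ in atTop, ∀ β : ℝ, |β - a| ≤ cη j →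
      cq n j a / 8 ≤ ∫ g, avQ n j β g ∂law n := by
  set κ := cκ j
  set ε := cε j
  set δ := cδ j
  have hκ : 0 < κ := cκ_pos j
  have hε : 0 < ε := cε_pos j
  have hδ : 0 < δ := cδ_pos j
  have hs : 0 < Real.sqrt (1 - a ^ 2) := Real.sqrt_pos.2 (by nlinarith)
  have hcast : Tendsto (fun n : ℕ => (n : ℝ)) atTop atTop := tendsto_natCast_atTop_atTop
  have hexpc : ∀ c : ℝ, 0 < c → ∀ k : ℕ,
      Tendsto (fun n : ℕ => (n : ℝ) ^ k * Real.exp (-(c * n))) atTop (nhds 0) := by
    intro c hc k
    have h := tendsto_pow_const_mul_const_pow_of_abs_lt_one k (r := Real.exp (-c))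
      (by rw [Real.abs_exp]; exact Real.exp_lt_one_iff.2 (by linarith))
    refine h.congr fun n => ?_
    rw [← Real.exp_nat_mul]; ring_nf
  have hp : Tendsto (fun n : ℕ => κ * (1 / (4 * ((κ / 12) ^ 2 * n))
      + 2 * j * Real.exp (-(κ / 2 * n)))) atTop (nhds 0) := by
    have h1 : Tendsto (fun n : ℕ => 1 / (4 * ((κ / 12) ^ 2 * n))) atTop (nhds 0) :=
      tendsto_const_nhds.div_atTop
        ((hcast.const_mul_atTop (by positivity)).const_mul_atTop (by norm_num))
    have h2 := (hexpc (κ / 2) (by positivity) 0).const_mul (2 * (j : ℝ))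
    simp only [pow_zero, one_mul, mul_zero] at h2
    simpa using (h1.add h2).const_mul κ
  have herr : Tendsto (fun n : ℕ =>
      (((n : ℝ) ^ (j + 1)) ^ 2 + 2 * j) * Real.exp (-(1 / 2 * (n : ℝ)))) atTop (nhds 0) := by
    have h := (hexpc (1 / 2) (by norm_num) ((j + 1) * 2)).add
      ((hexpc (1 / 2) (by norm_num) 0).const_mul (2 * (j : ℝ)))
    simp only [mul_zero, add_zero] at h
    refine h.congr fun n => ?_
    rw [pow_mul]; ring
  filter_upwards [eventually_ge_atTop (2 * (j + 1)),
    hcast.eventually_ge_atTop (24 / κ), hcast.eventually_gt_atTop (16 / ((κ / 12) ^ 2 *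
      Real.sqrt (1 - a ^ 2))), hcast.eventually_ge_atTop (4 * Real.log 2 / (ε * δ)),
    hp.eventually (eventually_le_nhds (mul_pos hε hδ)),
    herr.eventually (eventually_le_nhds (by positivity : (0 : ℝ) < δ / 8))]
    with n hn h24 h16 hlog hp' herr' β hβ
  have hn0 : (1 : ℝ) ≤ n := by exact_mod_cast (by omega : 1 ≤ n)
  rw [div_le_iff₀ hκ] at h24
  rw [div_lt_iff₀ (by positivity)] at h16
  rw [div_le_iff₀ (by positivity)] at hlog
  have hl : 2 ≤ cκ j / 12 * (n : ℝ) := by simp only [κ] at h24; linarith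
  have hK : 16 < (cκ j / 12) ^ 2 * n * Real.sqrt (1 - a ^ 2) := by
    simp only [κ] at h16; linarith
  have hq : δ * n ≤ cq n j a := cδ_le_cq ha hn
  have hq0 : 0 ≤ cq n j a := le_trans (by positivity) hq
  have hεq := mul_le_mul_of_nonneg_left hq hε.le
  have h1 := integral_gain_le ha ha1 hn hl hK
  have h1' : κ / 4 * n * (1 / (4 * ((κ / 12) ^ 2 * n)) + 2 * j * Real.exp (-(κ / 2 * n)))
      ≤ ε * δ * n / 4 := by
    have := mul_le_mul_of_nonneg_right hp' (by linarith : (0 : ℝ) ≤ (n : ℝ) / 4)
    linarith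
  obtain ⟨hampi, hamp⟩ := amp_bound (n := n) (by omega)
  have h2 : ∫ g, gain n j β g ∂law n ≤ (∫ g, gain n j a g ∂law n) + 2 * (cη j * (2 * n)) := by
    refine (integral_mono (integrable_gain n j β)
      ((integrable_gain n j a).add ((hampi.const_mul |β - a|).const_mul 2))
      fun g => gain_shift j β a g).trans ?_
    rw [Pi.add_def, integral_add (integrable_gain n j a) ((hampi.const_mul _).const_mul _),
      integral_const_mul, integral_const_mul]
    have h3 := mul_le_mul hβ hamp (integral_nonneg fun g =>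
      le_trans (abs_nonneg _) (abs_energy_le_amp g fun _ => true)) (cη_pos j).le
    linarith
  have hη : 2 * (cη j * (2 * (n : ℝ))) = ε * δ * n / 4 := by simp only [cη, ε, δ]; ring
  have h4 := avQ_clip β hn
  have h5 := mul_le_mul_of_nonneg_left herr' hε.le
  have h6 : δ ≤ δ * n := le_mul_of_one_le_right hδ.le hn0
  have h7 := mul_le_mul_of_nonneg_left h6 hε.le
  have h8 : ε * (cq n j a / 8) ≤ ε * ∫ g, avQ n j β g ∂law n := by
    simp only [κ, ε, δ] at *
    linarith
  exact le_of_mul_le_mul_left h8 hε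

end

end Vale.Agent.P146.Crit
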